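import Vale.Agent.P202.Diag.Syzygy
import Vale.Agent.P202.Base

/-!
# P202: properties of all finite modules over a power series ring, and the Koszul Euler sum
-/

noncomputable section

namespace Vale.Agent.P202.Diag

universe u

/-- A property closed under isomorphism and under cokernels of maps into finite free modules
holds for every finite module over a power series ring. -/
theorem finite_module_induction {k : Type u} [Field k] {D : ℕ}
    (Φ : ∀ (M : Type u) [AddCommGroup M] [Module (MvPowerSeries (Fin D) k) M], Prop)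
    (free : ∀ (m : ℕ) (M : Type u) [AddCommGroup M] [Module (MvPowerSeries (Fin D) k) M],
      (M ≃ₗ[MvPowerSeries (Fin D) k] (Fin m → MvPowerSeries (Fin D) k)) → Φ M)
    (step : ∀ (m : ℕ) (M : Type u) [AddCommGroup M] [Module (MvPowerSeries (Fin D) k) M]
      (f : (Fin m → MvPowerSeries (Fin D) k) →ₗ[MvPowerSeries (Fin D) k] M),
      Function.Surjective f → Φ (LinearMap.ker f) → Φ M)
    (M : Type u) [AddCommGroup M] [Module (MvPowerSeries (Fin D) k) M]
    [Module.Finite (MvPowerSeries (Fin D) k) M] : Φ M := by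
  have main : ∀ (n : ℕ) (M : Type u) [AddCommGroup M] [Module (MvPowerSeries (Fin D) k) M],
      FinRes (MvPowerSeries (Fin D) k) n M → Φ M := by
    intro n
    induction n with
    | zero => intro M _ _ ⟨m, ⟨e⟩⟩; exact free m M e
    | succ n ih =>
      intro M _ _ ⟨m, f, hf, hres⟩
      exact step m M f hf (ih _ hres)
  exact main D M (exists_finRes k D M)

variable {A : Type*} [CommRing A]

/-- The alternating sum of ranks of a tensor product is the product. -/
theorem euler_tensor (G G' : FreeCx A) :
    ∑ p : (G.tensor G').ι, (-1 : ℤ) ^ (G.tensor G').pos p =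
      (∑ g : G.ι, (-1 : ℤ) ^ G.pos g) * ∑ g : G'.ι, (-1 : ℤ) ^ G'.pos g := by
  rw [Fintype.sum_mul_sum]
  refine Eq.trans (Fintype.sum_prod_type _) ?_
  refine Finset.sum_congr rfl fun g _ => Finset.sum_congr rfl fun g' _ => ?_
  exact pow_add _ _ _

/-- A Koszul complex on at least one element has alternating rank sum zero. -/
theorem euler_koszul (z : A) (zs : List A) :
    ∑ p : (FreeCx.koszul (z :: zs)).ι, (-1 : ℤ) ^ (FreeCx.koszul (z :: zs)).pos p = 0 := by
  show ∑ p : ((FreeCx.koszul zs).tensor (FreeCx.koszul1 z)).ι,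
    (-1 : ℤ) ^ ((FreeCx.koszul zs).tensor (FreeCx.koszul1 z)).pos p = 0
  rw [euler_tensor]
  have : ∑ g : (FreeCx.koszul1 z).ι, (-1 : ℤ) ^ (FreeCx.koszul1 z).pos g = 0 := by
    show ∑ g : Fin 2, (-1 : ℤ) ^ g.val = 0
    simp [Fin.sum_univ_two]
  rw [this, mul_zero]

end Vale.Agent.P202.Diag
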