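import Vale.Agent.P202.Base

/-!
# P202: Euler characteristic of a complex on a finite-dimensional module
-/

noncomputable section

namespace Vale.Agent.P202.Diag

open Finset

variable {k : Type*} [Field k] {A : Type*} [CommRing A] [Algebra k A] (G : FreeCx A)
  (M : Type*) [AddCommGroup M] [Module A M] [Module k M] [IsScalarTower k A M]

/-- The piece in position `j` as a function space. -/
def degEquiv (j : ℤ) :
    ((G.diff M k).deg j) ≃ₗ[k] ({g : G.ι // (G.pos g : ℤ) = j} → M) where
  toFun f g := f.1 g.1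
  invFun v := ⟨fun g => if h : (G.pos g : ℤ) = j then v ⟨g, h⟩ else 0, fun g hg => dif_neg hg⟩
  left_inv f := by
    apply Subtype.ext
    funext g
    by_cases h : (G.pos g : ℤ) = j
    · simp [h]
    · simp [h, f.2 g h]
  right_inv v := by
    funext g
    simp [g.2]
  map_add' f f' := rfl
  map_smul' c f := rfl

theorem finrank_deg [Module.Finite k M] (j : ℤ) :
    Module.finrank k ((G.diff M k).deg j) =
      (univ.filter fun g => (G.pos g : ℤ) = j).card * Module.finrank k M := by
  rw [(degEquiv G M j).finrank_eq, Module.finrank_pi_fintype, sum_const, card_univ,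
    Fintype.card_subtype, smul_eq_mul]

/-- On a finite-dimensional module the Euler characteristic is the alternating sum of ranks. -/
theorem chi_of_finite [Module.Finite k M] :
    G.chi M k = (∑ g : G.ι, (-1 : ℤ) ^ G.pos g) * (Module.finrank k M : ℤ) := by
  classical
  set Δ := G.diff M k with hΔ
  set B : ℤ → ℕ := fun j => Module.finrank k ((Δ.deg (j + 1)).map Δ.d)
  set L : ℕ := univ.sup G.pos with hL
  have hpos : ∀ g, G.pos g ≤ L := fun g => le_sup (mem_univ g)
  have hdeg0 : ∀ j : ℤ, (j < 0 ∨ (L : ℤ) < j) → Δ.deg j = ⊥ := by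
    intro j hj
    rw [eq_bot_iff]
    intro f hf
    rw [Submodule.mem_bot]
    funext g
    exact hf g (by have := hpos g; omega)
  have key : ∀ j : ℤ, (Δ.betti ⊤ ⊥ j : ℤ) =
      (Module.finrank k (Δ.deg j) : ℤ) - B (j - 1) - B j := by
    intro j
    have hBsub : Δ.bdries ⊤ ⊥ j ≤ Δ.cycles ⊤ ⊥ j := by
      intro f hf
      simp only [Diff.bdries, top_inf_eq, bot_inf_eq, sup_bot_eq, Submodule.mem_map] at hf
      obtain ⟨w, hw, rfl⟩ := hf
      simp only [Diff.cycles, top_inf_eq, Submodule.mem_inf, Submodule.mem_comap, Submodule.mem_bot]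
      have := Δ.d_deg (j + 1) w hw
      rw [add_sub_cancel_right] at this
      exact ⟨this, Δ.d_d w⟩
    have h1 := Submodule.finrank_quotient_add_finrank
      ((Δ.bdries ⊤ ⊥ j).comap (Δ.cycles ⊤ ⊥ j).subtype)
    rw [(Submodule.comapSubtypeEquivOfLe hBsub).finrank_eq] at h1
    have hb : Module.finrank k (Δ.bdries ⊤ ⊥ j) = B j := by
      rw [show Δ.bdries ⊤ ⊥ j = (Δ.deg (j + 1)).map Δ.d by simp [Diff.bdries]]
    have h2 := LinearMap.finrank_range_add_finrank_ker (Δ.d.domRestrict (Δ.deg j))
    have hr : Module.finrank k (LinearMap.range (Δ.d.domRestrict (Δ.deg j))) = B (j - 1) := by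
      show _ = Module.finrank k ((Δ.deg (j - 1 + 1)).map Δ.d)
      rw [sub_add_cancel, LinearMap.range_domRestrict]
    have hk : Module.finrank k (LinearMap.ker (Δ.d.domRestrict (Δ.deg j))) =
        Module.finrank k (Δ.cycles ⊤ ⊥ j) := by
      let eq : LinearMap.ker (Δ.d.domRestrict (Δ.deg j)) ≃ₗ[k] Δ.cycles ⊤ ⊥ j :=
        { toFun := fun f => ⟨f.1.1, by
            simp only [Diff.cycles, top_inf_eq, Submodule.mem_inf, Submodule.mem_comap,
              Submodule.mem_bot]
            exact ⟨f.1.2, f.2⟩⟩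
          invFun := fun f => ⟨⟨f.1, (by
              have := f.2
              simp only [Diff.cycles, top_inf_eq, Submodule.mem_inf, Submodule.mem_comap,
                Submodule.mem_bot] at this
              exact this.1)⟩, (by
              have := f.2
              simp only [Diff.cycles, top_inf_eq, Submodule.mem_inf, Submodule.mem_comap,
                Submodule.mem_bot] at this
              exact this.2)⟩
          left_inv := fun f => rfl
          right_inv := fun f => rfl
          map_add' := fun f f' => rfl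
          map_smul' := fun c f => rfl }
      exact eq.finrank_eq
    have hbe : Module.finrank k (↥(Δ.cycles ⊤ ⊥ j) ⧸
        (Δ.bdries ⊤ ⊥ j).comap (Δ.cycles ⊤ ⊥ j).subtype) = Δ.betti ⊤ ⊥ j := rfl
    omega
  have hB0 : ∀ j : ℤ, (j + 1 < 1 ∨ (L : ℤ) < j + 1) → B j = 0 := by
    intro j hj
    rcases hj with hj | hj
    · rcases (show j + 1 < 0 ∨ j + 1 = 0 by omega) with h | h
      · simp [B, hdeg0 _ (Or.inl h)]
      · have : (Δ.deg (j + 1)).map Δ.d = ⊥ := by
          rw [eq_bot_iff]
          rintro _ ⟨w, hw, rfl⟩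
          have := Δ.d_deg _ _ hw
          rwa [hdeg0 _ (Or.inl (by omega))] at this
        show Module.finrank k ((Δ.deg (j + 1)).map Δ.d) = 0
        rw [this, finrank_bot]
    · simp [B, hdeg0 _ (Or.inr hj)]
  have hbet : ∀ j : ℤ, (j < 0 ∨ (L : ℤ) < j) → Δ.betti ⊤ ⊥ j = 0 := by
    intro j hj
    have := key j
    rw [hB0 (j - 1) (by omega), hB0 j (by omega), hdeg0 j hj, finrank_bot] at this
    omega
  have hsum : G.chi M k = ∑ i ∈ range (L + 1), (-1 : ℤ) ^ i * (Δ.betti ⊤ ⊥ (i : ℤ) : ℤ) := by
    rw [FreeCx.chi, Diff.chi, finsum_eq_sum_of_support_subset _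
      (s := (range (L + 1)).image (fun i : ℕ => (i : ℤ))), sum_image]
    · refine sum_congr rfl fun i _ => ?_
      simp [Int.negOnePow_def, zpow_natCast]
      rfl
    · intro a _ b _ h
      exact Int.ofNat.inj h
    · intro j hj
      simp only [coe_image, Set.mem_image, mem_coe, mem_range]
      by_contra hc
      refine hj ?_
      have : j < 0 ∨ (L : ℤ) < j := by
        by_contra h'
        exact hc ⟨j.toNat, by omega, by omega⟩
      show _ * ((G.diff M k).betti ⊤ ⊥ j : ℤ) = 0
      rw [hbet j this]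
      simp
  have tele : ∀ n : ℕ, ∑ i ∈ range n, (-1 : ℤ) ^ i * ((B ((i : ℤ) - 1) : ℤ) + B (i : ℤ))
      = -((-1 : ℤ) ^ n * B ((n : ℤ) - 1)) := by
    intro n
    induction n with
    | zero => simp [hB0 (-1) (Or.inl (by norm_num))]
    | succ n ih =>
      rw [sum_range_succ, ih, pow_succ]
      push_cast
      rw [add_sub_cancel_right]
      ring
  rw [hsum, sum_congr rfl fun i _ => by rw [key (i : ℤ), sub_sub, mul_sub], sum_sub_distrib,
    tele (L + 1)]
  push_cast
  rw [add_sub_cancel_right, hB0 (L : ℤ) (Or.inr (by omega))]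
  simp only [Nat.cast_zero, mul_zero, neg_zero, sub_zero]
  rw [sum_mul, ← sum_fiberwise_of_maps_to (t := range (L + 1)) (g := G.pos)
    (fun g _ => mem_range.2 (Nat.lt_succ_of_le (hpos g)))]
  refine sum_congr rfl fun i _ => ?_
  rw [hΔ, finrank_deg G M, sum_congr rfl (fun g hg => by rw [(mem_filter.1 hg).2] :
      ∀ g ∈ univ.filter (fun g => G.pos g = i),
        (-1 : ℤ) ^ G.pos g * (Module.finrank k M : ℤ) = (-1) ^ i * (Module.finrank k M : ℤ)),
    sum_const, nsmul_eq_mul]
  simp only [Int.natCast_inj]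
  push_cast
  ring

end Vale.Agent.P202.Diag
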