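import Vale.Agent.P202.Diag.Square
import Vale.Agent.P202.Diag.Euler
import Vale.Agent.P202.HomAlg.Pair

/-!
# P202: the Koszul complex of the variables on the power series ring
-/

noncomputable section

namespace Vale.Agent.P202.Diag

open MvPowerSeries Finset

universe u

section Map

variable {A B C : Type*} [CommRing A] [CommRing B] [CommRing C]

theorem map_tensor (G G' : FreeCx A) (φ : A →+* B) :
    (G.tensor G').map φ = (G.map φ).tensor (G'.map φ) := by
  unfold FreeCx.map FreeCx.tensor
  congr 1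
  ext p q
  simp [Matrix.map_apply, apply_ite φ, FreeCx.sgn]

theorem map_map_cx (G : FreeCx A) (φ : A →+* B) (ψ : B →+* C) :
    (G.map φ).map ψ = G.map (ψ.comp φ) := by
  unfold FreeCx.map
  congr 1

theorem map_one_cx (φ : A →+* B) : (FreeCx.one A).map φ = FreeCx.one B := by
  unfold FreeCx.map FreeCx.one
  congr 1
  ext p q
  simp

theorem map_koszul1 (z : A) (φ : A →+* B) :
    (FreeCx.koszul1 z).map φ = FreeCx.koszul1 (φ z) := by
  unfold FreeCx.map FreeCx.koszul1
  congr 1
  ext p q
  fin_cases p <;> fin_cases q <;> simp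

theorem map_koszul (zs : List A) (φ : A →+* B) :
    (FreeCx.koszul zs).map φ = FreeCx.koszul (zs.map φ) := by
  induction zs with
  | nil => exact map_one_cx φ
  | cons z zs ih => simp only [FreeCx.koszul, List.map_cons, map_tensor, ih, map_koszul1]

end Map

variable {k : Type u} [Field k]

/-- The list of variables. -/
def vars (k : Type u) [Field k] (D : ℕ) : List (PS k D) := List.ofFn fun i : Fin D => X i

theorem koszul_lengthLE {A : Type*} [CommRing A] :
    ∀ zs : List A, (FreeCx.koszul zs).LengthLE zs.length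
  | [] => fun _ => Nat.zero_le _
  | _ :: zs => fun p => Nat.add_le_add (koszul_lengthLE zs p.1) (Nat.le_of_lt_succ p.2.2)

theorem koszulOne_var :
    (FreeCx.koszul1 (X (0 : Fin 1) : PS k 1)).FiniteHom (PS k 1) k ∧
      (FreeCx.koszul1 (X (0 : Fin 1) : PS k 1)).chi (PS k 1) k = 1 := by
  set z : PS k 1 := X 0 with hz
  set G := FreeCx.koszul1 z
  set Δ := G.diff (PS k 1) k
  have hd0 : ∀ f : Fin 2 → PS k 1, Δ.d f (0 : Fin 2) = z * f 1 := by
    intro f
    show ∑ g : Fin 2, !![0, z; 0, 0] 0 g • f g = _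
    simp [Fin.sum_univ_two]
  have hd1 : ∀ f : Fin 2 → PS k 1, Δ.d f (1 : Fin 2) = 0 := by
    intro f
    show ∑ g : Fin 2, !![0, z; 0, 0] 1 g • f g = _
    simp [Fin.sum_univ_two]
  have hlen : G.LengthLE 1 := fun g => Nat.le_of_lt_succ g.2
  have hne : ∀ j : ℤ, j ≠ 0 → Subsingleton (Δ.cycles ⊤ ⊥ j) := by
    intro j hj
    refine ⟨fun f f' => ?_⟩
    suffices key : ∀ x : Δ.cycles ⊤ ⊥ j, x = 0 by rw [key f, key f']
    intro x
    obtain ⟨-, h2, h3⟩ := Δ.mem_cycles.mp x.2
    apply Subtype.ext
    funext (g : Fin 2)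
    have h4 : z * x.1 (1 : Fin 2) = 0 := (hd0 x.1).symm.trans (congrFun h3 (0 : Fin 2))
    fin_cases g
    · exact h2 (0 : Fin 2) (fun h => hj (h.symm.trans (by rfl)))
    · refine (mul_eq_zero.mp h4).resolve_left ?_
      rw [hz]
      exact fun h => by
        simpa [coeff_X] using congrArg (coeff (Finsupp.single (0 : Fin 1) 1)) h
  -- constant term of the component in position zero
  let ev : Δ.cycles ⊤ ⊥ 0 →ₗ[k] k :=
    { toFun := fun x => constantCoeff (x.1 (0 : Fin 2))
      map_add' := fun x y => map_add (constantCoeff (R := k) (σ := Fin 1)) _ _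
      map_smul' := fun c x => by
        show constantCoeff (c • x.1 (0 : Fin 2)) = c * constantCoeff _
        simp }
  have hker : LinearMap.ker ev = (Δ.bdries ⊤ ⊥ 0).comap (Δ.cycles ⊤ ⊥ 0).subtype := by
    ext x
    obtain ⟨-, h2, -⟩ := Δ.mem_cycles.mp x.2
    constructor
    · intro hx
      have hx' : constantCoeff (x.1 (0 : Fin 2)) = 0 := hx
      obtain ⟨c, hc⟩ : z ∣ x.1 (0 : Fin 2) := by
        rw [hz, X_dvd_iff]
        intro m hm
        have : m = 0 := Finsupp.ext fun i => by
          rw [Subsingleton.elim i 0]; exact hm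
        rw [this, coeff_zero_eq_constantCoeff_apply]
        exact hx'
      refine Δ.mem_bdries.mpr ⟨(![0, c] : Fin 2 → PS k 1), ⟨trivial, fun g hg => ?_⟩, 0,
        ⟨Submodule.zero_mem _, Submodule.zero_mem _⟩, ?_⟩
      · change Fin 2 at g
        fin_cases g
        · rfl
        · exact absurd (by rfl) hg
      · rw [add_zero]
        funext (g : Fin 2)
        fin_cases g
        · exact (hd0 _).trans hc.symm
        · exact (hd1 _).trans (h2 (1 : Fin 2) (show ((1 : ℕ) : ℤ) ≠ 0 by norm_num)).symm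
    · intro hx
      obtain ⟨w, -, y, ⟨hy, -⟩, e⟩ := Δ.mem_bdries.mp hx
      rw [Submodule.mem_bot] at hy
      rw [hy, add_zero] at e
      show constantCoeff (x.1 (0 : Fin 2)) = 0
      have e0 : Δ.d w (0 : Fin 2) = x.1 (0 : Fin 2) := congrFun e (0 : Fin 2)
      rw [← e0, hd0 w, map_mul, hz, constantCoeff_X, zero_mul]
  have hsurj : Function.Surjective ev := fun c =>
    ⟨⟨(![C c, 0] : Fin 2 → PS k 1), Δ.mem_cycles.mpr ⟨trivial, fun g hg => by
      change Fin 2 at g
      fin_cases g
      · exact absurd (by rfl) hg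
      · rfl, by
      rw [Submodule.mem_bot]
      funext (g : Fin 2)
      fin_cases g
      · exact (hd0 _).trans (mul_zero z)
      · exact hd1 _⟩⟩, by
      show constantCoeff ((![C c, 0] : Fin 2 → PS k 1) 0) = c
      simp⟩
  let eq0 : Δ.H ⊤ ⊥ 0 ≃ₗ[k] k :=
    (Submodule.quotEquivOfEq _ _ hker.symm).trans (ev.quotKerEquivOfSurjective hsurj)
  refine ⟨fun j => ?_, ?_⟩
  · rcases eq_or_ne j 0 with rfl | hj
    · exact Module.Finite.equiv eq0.symm
    · haveI := hne j hj
      haveI : Subsingleton (Δ.H ⊤ ⊥ j) := (Submodule.Quotient.mk_surjective _).subsingleton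
      exact Module.Finite.of_finite
  · rw [chi_eq_sum G hlen, sum_range_succ, sum_range_one]
    have b0 : G.homDim (PS k 1) k ((0 : ℕ) : ℤ) = 1 := by
      show Module.finrank k (Δ.H ⊤ ⊥ ((0 : ℕ) : ℤ)) = 1
      rw [Nat.cast_zero, eq0.finrank_eq, Module.finrank_self]
    have b1 : G.homDim (PS k 1) k ((1 : ℕ) : ℤ) = 0 := by
      haveI := hne ((1 : ℕ) : ℤ) (by norm_num)
      exact Module.finrank_zero_of_subsingleton
    rw [b0, b1]
    simp

/-- The Koszul complex of the variables has Euler characteristic one. -/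
theorem koszul_vars : ∀ D : ℕ, (FreeCx.koszul (vars k D)).FiniteHom (PS k D) k ∧
    (FreeCx.koszul (vars k D)).chi (PS k D) k = 1 := by
  intro D
  induction D with
  | zero =>
    haveI : Module.Finite k (PS k 0) :=
      Module.Finite.equiv (MvPowerSeries.isEmptyEquiv (Fin 0) k).toLinearEquiv.symm
    have h1 : Module.finrank k (PS k 0) = 1 := by
      rw [(MvPowerSeries.isEmptyEquiv (Fin 0) k).toLinearEquiv.finrank_eq, Module.finrank_self]
    refine ⟨fun j => inferInstance, ?_⟩
    rw [chi_of_finite, h1]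
    show (∑ g : Unit, (-1 : ℤ) ^ (0 : ℕ)) * _ = 1
    simp
  | succ D ih =>
    obtain ⟨hK1, hchi1⟩ := koszulOne_var (k := k)
    set K := FreeCx.koszul (vars k D)
    set K1 := FreeCx.koszul1 (X (0 : Fin 1) : PS k 1)
    have hlen : K.LengthLE (vars k D).length := koszul_lengthLE _
    have hlen1 : K1.LengthLE 1 := fun g => Nat.le_of_lt_succ g.2
    let σ : Fin D ⊕ Fin 1 ≃ Fin (D + 1) :=
      { toFun := Sum.elim Fin.succ fun _ => 0
        invFun := Fin.cases (Sum.inr 0) Sum.inl
        left_inv := by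
          rintro (i | i)
          · simp
          · simp [Subsingleton.elim i 0]
        right_inv := fun i => by
          refine Fin.cases ?_ (fun j => ?_) i <;> simp }
    let e : MvPowerSeries (Fin D ⊕ Fin 1) k ≃ₐ[k] PS k (D + 1) := renameEquiv k σ
    have heq : (prodCx K K1).map e.toRingEquiv.toRingHom = FreeCx.koszul (vars k (D + 1)) := by
      rw [prodCx, map_tensor, map_map_cx, map_map_cx, map_koszul, map_koszul1]
      simp only [vars, List.ofFn_succ, FreeCx.koszul, List.map_ofFn]
      congr 2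
      · congr 1
        funext i
        show rename σ (rename (⟨Sum.inl, Sum.inl_injective⟩ : Fin D ↪ Fin D ⊕ Fin 1) (X i)) = _
        rw [rename_X, rename_X]
        rfl
      · show rename σ (rename (⟨Sum.inr, Sum.inr_injective⟩ : Fin 1 ↪ Fin D ⊕ Fin 1) (X 0)) = _
        rw [rename_X, rename_X]
        rfl
    rw [← heq]
    refine ⟨finiteHom_map_equiv _ e fun j => (kunneth ih.1 hK1 hlen j).1, ?_⟩
    rw [chi_map_equiv _ e, (chi_prodCx ih.1 hK1 hlen hlen1).2, ih.2, hchi1, one_mul]

end Vale.Agent.P202.Diag
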