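import Vale.Agent.P202.HomAlg.Coef
import Vale.Agent.P202.Diag.Devissage
import Vale.Agent.P202.Diag.KoszulVars

/-!
# P202: Euler characteristics are multiples of the Koszul one
-/

noncomputable section

namespace Vale.Agent.P202.Diag

universe u

variable {k : Type u} [Field k] {D : ℕ}

/-- On a finite module over power series, every complex with finite-dimensional homology has
Euler characteristic its own times the Koszul one of the module. -/
theorem chi_diag (G : FreeCx (PS k D)) (hG : G.FiniteHom (PS k D) k) (M : Type u) [AddCommGroup M]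
    [Module (PS k D) M] [Module k M] [IsScalarTower k (PS k D) M] [Module.Finite (PS k D) M] :
    G.FiniteHom M k ∧ (FreeCx.koszul (vars k D)).FiniteHom M k ∧
      G.chi M k = G.chi (PS k D) k * (FreeCx.koszul (vars k D)).chi M k := by
  set Kx := FreeCx.koszul (vars k D) with hKx
  obtain ⟨hK, hK1⟩ := koszul_vars (k := k) D
  have main := finite_module_induction
    (fun (N : Type u) [AddCommGroup N] [Module (PS k D) N] =>
      ∀ [Module k N] [IsScalarTower k (PS k D) N],
        G.FiniteHom N k ∧ Kx.FiniteHom N k ∧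
          G.chi N k = G.chi (PS k D) k * Kx.chi N k) ?_ ?_ M
  · exact main
  · intro m N _ _ e _ _
    obtain ⟨g1, g2⟩ := G.chi_pi hG m
    obtain ⟨x1, x2⟩ := Kx.chi_pi hK m
    refine ⟨(G.finiteHom_congr k e).mpr g1, (Kx.finiteHom_congr k e).mpr x1, ?_⟩
    rw [G.chi_congr k e, Kx.chi_congr k e, g2, x2, hK1]
    ring
  · intro m N _ _ f hf ih _ _
    obtain ⟨g0, x0, e0⟩ := ih
    obtain ⟨g1, g2⟩ := G.chi_pi hG m
    obtain ⟨x1, x2⟩ := Kx.chi_pi hK m
    have hi : Function.Injective (LinearMap.ker f).subtype := Subtype.val_injective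
    have hex : Function.Exact (LinearMap.ker f).subtype f := LinearMap.exact_subtype_ker_map f
    have g3 := G.finiteHom_last hi hf hex g0 g1
    have x3 := Kx.finiteHom_last hi hf hex x0 x1
    refine ⟨g3, x3, ?_⟩
    have a := G.chi_additive hi hf hex g0 g3
    have b := Kx.chi_additive hi hf hex x0 x3
    rw [g2, e0] at a
    rw [x2, hK1] at b
    linear_combination (-1 : ℤ) * a + G.chi (PS k D) k * b

/-- The form needed for the weak bound: the Koszul value of `M` is given. -/
theorem chi_eq_mul (G : FreeCx (PS k D)) (hG : G.FiniteHom (PS k D) k) (M : Type u)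
    [AddCommGroup M] [Module (PS k D) M] [Module k M] [IsScalarTower k (PS k D) M]
    [Module.Finite (PS k D) M] {c : ℤ} (hc : (FreeCx.koszul (vars k D)).chi M k = c) :
    G.chi M k = G.chi (PS k D) k * c := by
  rw [(chi_diag G hG M).2.2, hc]

/-- For at least one variable the alternating sum of ranks vanishes. -/
theorem euler_zero (hD : 1 ≤ D) (G : FreeCx (PS k D)) (hG : G.FiniteHom (PS k D) k) :
    ∑ g : G.ι, (-1 : ℤ) ^ G.pos g = 0 := by
  letI : Algebra (PS k D) k := (MvPowerSeries.constantCoeff (R := k) (σ := Fin D)).toAlgebra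
  have hsmul : ∀ (a : PS k D) (x : k), a • x = MvPowerSeries.constantCoeff a * x := fun a x => rfl
  haveI : IsScalarTower k (PS k D) k := ⟨fun c a x => by
    simp [hsmul, mul_assoc]⟩
  haveI : Module.Finite (PS k D) k :=
    Module.Finite.of_surjective (Algebra.linearMap (PS k D) k) fun c =>
      ⟨MvPowerSeries.C c, MvPowerSeries.constantCoeff_C c⟩
  obtain ⟨-, -, h⟩ := chi_diag G hG k
  rw [chi_of_finite G k, chi_of_finite (FreeCx.koszul (vars k D)) k, Module.finrank_self] at h
  obtain ⟨n, rfl⟩ : ∃ n, D = n + 1 := ⟨D - 1, by omega⟩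
  have : ∑ p : (FreeCx.koszul (vars k (n + 1))).ι,
      (-1 : ℤ) ^ (FreeCx.koszul (vars k (n + 1))).pos p = 0 := by
    rw [vars, List.ofFn_succ]
    exact euler_koszul _ _
  rw [this] at h
  simpa using h

end Vale.Agent.P202.Diag
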