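import Vale.Agent.P202.Diag.Kunneth

/-!
# P202: dimensions in the Künneth formula
-/

noncomputable section

namespace Vale.Agent.P202.Diag

open MvPowerSeries Finset

variable {k : Type*} [Field k] {α β : Type*} [Finite α] [Finite β]
  {G : FreeCx (MvPowerSeries α k)} {G' : FreeCx (MvPowerSeries β k)} {L : ℕ}

/-- Basis cycles in every position. -/
structure Basics (G : FreeCx (MvPowerSeries α k)) where
  z : ∀ p : ℤ, Fin (G.homDim (MvPowerSeries α k) k p) → G.ι → MvPowerSeries α k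
  ok : ∀ p, HomBasis G p (z p)

/-- Coefficient arrays for the product classes in position `j`. -/
abbrev Coefs (G : FreeCx (MvPowerSeries α k)) (G' : FreeCx (MvPowerSeries β k)) (L : ℕ) (j : ℤ) :
    Type _ :=
  (p : Fin (L + 1)) → Fin (G.homDim (MvPowerSeries α k) k (p : ℕ)) →
    Fin (G'.homDim (MvPowerSeries β k) k (j - (p : ℕ))) → k

variable (B : Basics G) (B' : Basics G')

/-- The combination of product classes. -/
def uMap (L : ℕ) (j : ℤ) : Coefs G G' L j →ₗ[k] PTot G G' :=
  ∑ p : Fin (L + 1), (pairing (B.ok (p : ℕ)) (B'.ok (j - (p : ℕ)))).comp (LinearMap.proj p)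

theorem uMap_apply (j : ℤ) (a : Coefs G G' L j) (y : G.ι × G'.ι) :
    uMap B B' L j a y =
      ∑ p : Fin (L + 1), pairing (B.ok (p : ℕ)) (B'.ok (j - (p : ℕ))) (a p) y := by
  simp [uMap]

theorem uMap_inDeg (j : ℤ) (a : Coefs G G' L j) : InDeg j (uMap B B' L j a) := by
  intro y hy
  rw [uMap_apply]
  exact sum_eq_zero fun p _ => pairing_inDeg _ _ (a p) (by ring) y hy

theorem dT_uMap (j : ℤ) (a : Coefs G G' L j) : dT G G' (uMap B B' L j a) = 0 := by
  simp only [uMap, LinearMap.sum_apply, LinearMap.comp_apply, map_sum, dT_pairing, sum_const_zero]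

theorem uMap_row (j : ℤ) (a : Coefs G G' L j) (p : Fin (L + 1)) (y : G.ι × G'.ι)
    (hy : (G.pos y.1 : ℤ) = (p : ℕ)) :
    uMap B B' L j a y = pairing (B.ok (p : ℕ)) (B'.ok (j - (p : ℕ))) (a p) y := by
  rw [uMap_apply]
  refine sum_eq_single p (fun q _ hq => pairing_row_zero _ _ _ _ ?_) (fun h => absurd (mem_univ _) h)
  intro h
  exact hq (Fin.ext (by omega))

theorem dT_dT (F : PTot G G') : dT G G' (dT G G' F) = 0 := by
  rw [← dA_prodCx, ← dA_prodCx]
  exact FreeCx.dA_dA _ _ _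

/-- Every cycle is a combination of product classes modulo a boundary. -/
theorem uMap_surj (hL : G.LengthLE L) (j : ℤ) : ∀ n : ℕ, n ≤ L + 1 → ∀ F : PTot G G', InDeg j F →
    (∀ y, n ≤ G.pos y.1 → F y = 0) → dT G G' F = 0 →
    ∃ (a : Coefs G G' L j) (v : PTot G G'), InDeg (j + 1) v ∧ F = uMap B B' L j a + dT G G' v := by
  classical
  intro n
  induction n with
  | zero =>
    intro _ F _ h0 _
    refine ⟨0, 0, fun _ _ => rfl, ?_⟩
    rw [map_zero, map_zero, add_zero]
    exact funext fun y => h0 y (Nat.zero_le _)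
  | succ n ih =>
    intro hn F hdeg htop hd
    obtain ⟨-, b, v, hv, hrest⟩ := row_step (p := (n : ℤ)) (q := (n : ℤ) - 1) (l := j - (n : ℤ))
      (by ring) (B.ok _) (B.ok _) (B'.ok _) 0 F
      (by rw [show (n : ℤ) + (j - (n : ℤ)) = j by ring]; exact hdeg)
      (fun y hy => htop y (by omega)) (fun y _ => by rw [hd]; rfl)
      (fun y _ => by rw [hd, map_zero])
    rw [show (n : ℤ) + (j - (n : ℤ)) + 1 = j + 1 by ring] at hv
    set pr := pairing (B.ok (n : ℤ)) (B'.ok (j - (n : ℤ))) b with hpr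
    set F' := F - dT G G' v - pr with hF'
    have hdv : InDeg j (dT G G' v) := by
      have := ((prodCx G G').diff (MvPowerSeries (α ⊕ β) k) k).d_deg _ v ((mem_deg_iff _ _).mpr hv)
      rw [add_sub_cancel_right] at this
      intro y hy
      have h2 := (mem_deg_iff _ _).mp this y hy
      exact (congrFun (dA_prodCx G G' v) y).symm.trans h2
    have hdeg' : InDeg j F' := fun y hy => by
      simp [hF', hpr, hdeg y hy, hdv y hy,
        pairing_inDeg (B.ok (n : ℤ)) (B'.ok (j - (n : ℤ))) b (j := j) (by ring) y hy]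
    obtain ⟨a, w, hw, e⟩ := ih (by omega) F' hdeg' (fun y hy => hrest y (by omega))
      (by simp only [hF', hpr, map_sub, hd, dT_dT, dT_pairing, sub_zero])
    let q : Fin (L + 1) := ⟨n, by omega⟩
    refine ⟨a + Pi.single q b, v + w, fun y hy => by simp [hv y hy, hw y hy], ?_⟩
    have hs : uMap B B' L j (Pi.single q b) = pr := by
      funext y
      rw [uMap_apply, sum_eq_single q (fun p _ hp => by
        rw [Pi.single_eq_of_ne hp, map_zero]; rfl) (fun h => absurd (mem_univ _) h),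
        Pi.single_eq_same]
    rw [map_add, map_add, hs]
    have : F = F' + dT G G' v + pr := by rw [hF']; abel
    rw [this, e]
    abel

/-- A combination of product classes which is a boundary vanishes. -/
theorem uMap_inj (hL : G.LengthLE L) (j : ℤ) : ∀ n : ℕ, n ≤ L + 1 → ∀ (w : PTot G G')
    (a : Coefs G G' L j), InDeg (j + 1) w → (∀ y, n ≤ G.pos y.1 → w y = 0) →
    dT G G' w = uMap B B' L j a → a = 0 := by
  intro n
  induction n with
  | zero =>
    intro _ w a _ h0 he
    have hw : w = 0 := funext fun y => h0 y (Nat.zero_le _)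
    rw [hw, map_zero] at he
    funext p
    refine pairing_zero (B.ok _) (B'.ok _) (a p) (fun _ _ => 0) (fun _ _ _ => rfl) fun g hg g' => ?_
    rw [← uMap_row B B' j a p (g, g') hg, ← he]
    simp [dY]
  | succ n ih =>
    intro hn w a hdeg htop he
    have htopz : ∀ y : G.ι × G'.ι, (n : ℤ) < (G.pos y.1 : ℤ) → w y = 0 :=
      fun y hy => htop y (by omega)
    have hhigh : ∀ p : Fin (L + 1), n ≤ (p : ℕ) → a p = 0 := by
      intro p hp
      refine pairing_zero (B.ok _) (B'.ok _) (a p)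
        (fun g g' => if (G.pos g : ℤ) = (p : ℕ) then (-1) ^ G.pos g * w (g, g') else 0) ?_ ?_
      · intro g g' hg'
        split_ifs with h
        · rw [hdeg (g, g') (by simp only; omega), mul_zero]
        · rfl
      · intro g hg g'
        rw [← uMap_row B B' j a p (g, g') hg, ← he,
          dT_top_row htopz (g, g') (by simp only; omega)]
        simp [dY, hg, mul_sum, mul_left_comm]
    have hp : ∀ y : G.ι × G'.ι, (G.pos y.1 : ℤ) = (n : ℤ) → dT G G' w y = 0 := by
      intro y hy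
      rw [he, uMap_row B B' j a ⟨n, by omega⟩ y hy, hhigh ⟨n, by omega⟩ le_rfl, map_zero]
      rfl
    rcases Nat.eq_zero_or_pos n with hn0 | hn0
    · subst hn0
      funext p
      exact hhigh p (Nat.zero_le _)
    obtain ⟨m, rfl⟩ : ∃ m, n = m + 1 := ⟨n - 1, by omega⟩
    let q : Fin (L + 1) := ⟨m, by omega⟩
    obtain ⟨hq0, b, v, hv, hrest⟩ := row_step (p := ((m + 1 : ℕ) : ℤ)) (q := ((q : ℕ) : ℤ))
      (l := j - ((q : ℕ) : ℤ)) (by push_cast; rfl) (B.ok _) (B.ok _) (B'.ok _) (a q) w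
      (by rw [show ((m + 1 : ℕ) : ℤ) + (j - ((q : ℕ) : ℤ)) = j + 1 by simp [q]; ring]; exact hdeg)
      htopz hp (fun y hy => by rw [he]; exact uMap_row B B' j a q y hy)
    rw [show ((m + 1 : ℕ) : ℤ) + (j - ((q : ℕ) : ℤ)) + 1 = j + 1 + 1 by simp [q]; ring] at hv
    set pr := pairing (B.ok ((m + 1 : ℕ) : ℤ)) (B'.ok (j - ((q : ℕ) : ℤ))) b with hpr
    have hdv : InDeg (j + 1) (dT G G' v) := by
      have := ((prodCx G G').diff (MvPowerSeries (α ⊕ β) k) k).d_deg _ v ((mem_deg_iff _ _).mpr hv)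
      rw [add_sub_cancel_right] at this
      intro y hy
      have h2 := (mem_deg_iff _ _).mp this y hy
      exact (congrFun (dA_prodCx G G' v) y).symm.trans h2
    refine ih (by omega) (w - dT G G' v - pr) a (fun y hy => ?_) (fun y hy => hrest y ?_) ?_
    · simp [hpr, hdeg y hy, hdv y hy, pairing_inDeg (B.ok ((m + 1 : ℕ) : ℤ))
        (B'.ok (j - ((q : ℕ) : ℤ))) b (j := j + 1) (by simp [q]; ring) y hy]
    · show ((m : ℕ) : ℤ) < _
      omega
    · simp only [hpr, map_sub, dT_dT, dT_pairing, sub_zero, he]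

/-- The Künneth formula: dimension and finiteness. -/
theorem kunneth (hG : G.FiniteHom (MvPowerSeries α k) k)
    (hG' : G'.FiniteHom (MvPowerSeries β k) k) (hL : G.LengthLE L) (j : ℤ) :
    Module.Finite k (((prodCx G G').diff (MvPowerSeries (α ⊕ β) k) k).H ⊤ ⊥ j) ∧
      (prodCx G G').homDim (MvPowerSeries (α ⊕ β) k) k j =
        ∑ p ∈ range (L + 1), G.homDim (MvPowerSeries α k) k (p : ℕ) *
          G'.homDim (MvPowerSeries β k) k (j - (p : ℕ)) := by
  classical
  obtain ⟨B⟩ : Nonempty (Basics G) := by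
    choose z hz using exists_homBasis G hG
    exact ⟨⟨z, hz⟩⟩
  obtain ⟨B'⟩ : Nonempty (Basics G') := by
    choose z hz using exists_homBasis G' hG'
    exact ⟨⟨z, hz⟩⟩
  set Δ := (prodCx G G').diff (MvPowerSeries (α ⊕ β) k) k with hΔ
  have hd : ∀ F : PTot G G', Δ.d F = dT G G' F := fun F => dA_prodCx G G' F
  have mem : ∀ F : PTot G G', F ∈ Δ.cycles ⊤ ⊥ j ↔ InDeg j F ∧ dT G G' F = 0 := by
    intro F
    show ((F ∈ (⊤ : Submodule k (PTot G G'))) ∧ F ∈ Δ.deg j) ∧
      Δ.d F ∈ (⊥ : Submodule k (PTot G G')) ↔ _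
    constructor
    · rintro ⟨⟨-, h1⟩, h2⟩
      exact ⟨(mem_deg_iff j F).mp h1, (hd F).symm.trans h2⟩
    · rintro ⟨h1, h2⟩
      exact ⟨⟨trivial, (mem_deg_iff j F).mpr h1⟩, (hd F).trans h2⟩
  have zero : ∀ F : Δ.cycles ⊤ ⊥ j, (Submodule.Quotient.mk F : Δ.H ⊤ ⊥ j) = 0 ↔
      ∃ w : PTot G G', InDeg (j + 1) w ∧ dT G G' w = F.1 := by
    intro F
    rw [Submodule.Quotient.mk_eq_zero]
    simp only [Diff.bdries, top_inf_eq, bot_inf_eq, sup_bot_eq, Submodule.mem_comap,
      Submodule.mem_map, Submodule.coe_subtype]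
    constructor
    · rintro ⟨w, hw, e⟩
      exact ⟨w, (mem_deg_iff _ _).mp hw, (hd w).symm.trans e⟩
    · rintro ⟨w, hw, e⟩
      exact ⟨w, (mem_deg_iff _ _).mpr hw, (hd w).trans e⟩
  let Φ : Coefs G G' L j →ₗ[k] Δ.H ⊤ ⊥ j :=
    (Submodule.mkQ _).comp (LinearMap.codRestrict (Δ.cycles ⊤ ⊥ j) (uMap B B' L j)
      (fun a => (mem _).mpr ⟨uMap_inDeg B B' j a, dT_uMap B B' j a⟩))
  have hbij : Function.Bijective Φ := by
    constructor
    · rw [← LinearMap.ker_eq_bot, LinearMap.ker_eq_bot']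
      intro a ha
      obtain ⟨w, hw, e⟩ := (zero _).mp ha
      exact uMap_inj B B' hL j (L + 1) le_rfl w a hw
        (fun y hy => absurd (hL y.1) (by omega)) e
    · intro x
      obtain ⟨F, rfl⟩ := Submodule.Quotient.mk_surjective _ x
      obtain ⟨hF1, hF2⟩ := (mem F.1).mp F.2
      obtain ⟨a, v, hv, e⟩ := uMap_surj B B' hL j (L + 1) le_rfl F.1 hF1
        (fun y hy => absurd (hL y.1) (by omega)) hF2
      refine ⟨a, sub_eq_zero.mp ?_⟩
      refine (zero (_ - F)).mpr ⟨-v, fun y hy => by simp [hv y hy], ?_⟩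
      have e' : ∀ F0 : PTot G G', F0 = uMap B B' L j a + dT G G' v →
          dT G G' (-v) = uMap B B' L j a - F0 := fun F0 h0 => by rw [h0, map_neg]; abel
      exact e' F.1 e
  let eq := LinearEquiv.ofBijective Φ hbij
  refine ⟨Module.Finite.equiv eq, ?_⟩
  show Module.finrank k (Δ.H ⊤ ⊥ j) = _
  rw [← eq.finrank_eq, Module.finrank_pi_fintype, ← Fin.sum_univ_eq_sum_range (fun p : ℕ =>
    G.homDim (MvPowerSeries α k) k (p : ℕ) * G'.homDim (MvPowerSeries β k) k (j - (p : ℕ)))]
  refine sum_congr rfl fun p _ => ?_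
  rw [Module.finrank_pi_fintype, sum_const, card_univ, Fintype.card_fin, Module.finrank_fintype_fun_eq_card,
    Fintype.card_fin, smul_eq_mul]

/-- Homology lives between position `0` and the length. -/
theorem homDim_eq_zero {R : Type*} [CommRing R] [Algebra k R] (H : FreeCx R) {L : ℕ}
    (hL : H.LengthLE L) (j : ℤ) (hj : j < 0 ∨ (L : ℤ) < j) : H.homDim R k j = 0 := by
  have hs : Subsingleton ((H.diff R k).cycles ⊤ ⊥ j) := by
    refine ⟨fun f f' => Subtype.ext (funext fun g => ?_)⟩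
    have h1 := f.2
    have h2 := f'.2
    simp only [Diff.cycles, top_inf_eq, Submodule.mem_inf] at h1 h2
    have := hL g
    rw [h1.1 g (by omega), h2.1 g (by omega)]
  exact Module.finrank_zero_of_subsingleton

/-- The Euler characteristic as a finite sum. -/
theorem chi_eq_sum {R : Type*} [CommRing R] [Algebra k R] (H : FreeCx R) {L : ℕ}
    (hL : H.LengthLE L) :
    H.chi R k = ∑ i ∈ range (L + 1), (-1 : ℤ) ^ i * (H.homDim R k (i : ℕ) : ℤ) := by
  rw [FreeCx.chi, Diff.chi, finsum_eq_sum_of_support_subset _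
    (s := (range (L + 1)).image (fun i : ℕ => (i : ℤ))), sum_image]
  · refine sum_congr rfl fun i _ => ?_
    simp [Int.negOnePow_def, zpow_natCast]
    rfl
  · intro a _ b _ h
    exact Int.ofNat.inj h
  · intro j hj
    simp only [coe_image, Set.mem_image, mem_coe, mem_range]
    by_contra hc
    refine hj ?_
    have : j < 0 ∨ (L : ℤ) < j := by
      by_contra h'
      exact hc ⟨j.toNat, by omega, by omega⟩
    have h0 : (H.diff R k).betti ⊤ ⊥ j = 0 := homDim_eq_zero H hL j this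
    simp only [h0]
    simp

/-- The Euler characteristic of the product is the product. -/
theorem chi_prodCx (hG : G.FiniteHom (MvPowerSeries α k) k)
    (hG' : G'.FiniteHom (MvPowerSeries β k) k) {L' : ℕ} (hL : G.LengthLE L)
    (hL' : G'.LengthLE L') :
    (prodCx G G').LengthLE (L + L') ∧
    (prodCx G G').chi (MvPowerSeries (α ⊕ β) k) k =
      G.chi (MvPowerSeries α k) k * G'.chi (MvPowerSeries β k) k := by
  have hT : (prodCx G G').LengthLE (L + L') := fun y => add_le_add (hL y.1) (hL' y.2)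
  refine ⟨hT, ?_⟩
  rw [chi_eq_sum _ hT, chi_eq_sum _ hL, chi_eq_sum _ hL', sum_mul_sum]
  simp only [(kunneth hG hG' hL _).2, Nat.cast_sum, Nat.cast_mul, mul_sum]
  rw [sum_comm]
  refine sum_congr rfl fun p hp => ?_
  rw [mem_range] at hp
  rw [range_eq_Ico, ← sum_Ico_consecutive _ (show 0 ≤ p by omega) (show p ≤ L + L' + 1 by omega),
    ← sum_Ico_consecutive _ (show p ≤ p + (L' + 1) by omega)
      (show p + (L' + 1) ≤ L + L' + 1 by omega),
    sum_eq_zero (s := Ico 0 p), sum_eq_zero (s := Ico (p + (L' + 1)) (L + L' + 1)), zero_add,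
    add_zero, sum_Ico_eq_sum_range, Nat.add_sub_cancel_left]
  · refine sum_congr (by rw [range_eq_Ico]) fun i _ => ?_
    rw [pow_add, show ((p + i : ℕ) : ℤ) - (p : ℤ) = (i : ℤ) by push_cast; ring]
    ring
  · intro i hi
    rw [mem_Ico] at hi
    rw [homDim_eq_zero G' hL' _ (by omega)]
    simp
  · intro i hi
    rw [mem_Ico] at hi
    rw [homDim_eq_zero G' hL' _ (by omega)]
    simp

end Vale.Agent.P202.Diag
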