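import Vale.Agent.P202.Base

/-!
# P202: transport of homology along an isomorphism
-/

noncomputable section

namespace Vale.Agent.P202.Diag

variable {k : Type*} [CommRing k] {M M' : Type*} [AddCommGroup M] [Module k M] [AddCommGroup M']
  [Module k M'] (D : Diff k M) (D' : Diff k M') (φ : M ≃ₗ[k] M')

/-- An isomorphism respecting differential and positions induces one on homology. -/
def homologyEquiv (hd : ∀ x, φ (D.d x) = D'.d (φ x))
    (hdeg : ∀ j x, φ x ∈ D'.deg j ↔ x ∈ D.deg j) (j : ℤ) : D.H ⊤ ⊥ j ≃ₗ[k] D'.H ⊤ ⊥ j :=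
  have hc : (D.cycles ⊤ ⊥ j).map φ.toLinearMap = D'.cycles ⊤ ⊥ j := by
    ext y
    obtain ⟨x, rfl⟩ := φ.surjective y
    simp only [Submodule.mem_map_equiv, LinearEquiv.symm_apply_apply, Diff.cycles, top_inf_eq,
      Submodule.mem_inf, Submodule.mem_comap, Submodule.mem_bot, hdeg, ← hd,
      LinearEquiv.map_eq_zero_iff]
  Submodule.Quotient.equiv _ _ ((φ.submoduleMap (D.cycles ⊤ ⊥ j)).trans (LinearEquiv.ofEq _ _ hc))
    (by
      ext ⟨y, hy⟩
      obtain ⟨x, rfl⟩ := φ.surjective y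
      simp only [Submodule.mem_map, Submodule.mem_comap, Submodule.coe_subtype, Diff.bdries,
        top_inf_eq, bot_inf_eq, sup_bot_eq]
      constructor
      · rintro ⟨⟨z, hz⟩, ⟨w, hw, e⟩, he⟩
        refine ⟨φ w, (hdeg _ _).mpr hw, ?_⟩
        rw [← hd, e]
        exact congrArg Subtype.val he
      · rintro ⟨w', hw, e⟩
        obtain ⟨w, rfl⟩ := φ.surjective w'
        rw [← hd] at e
        have e' := φ.injective e
        refine ⟨⟨x, ?_⟩, ⟨w, (hdeg _ _).mp hw, e'⟩, Subtype.ext rfl⟩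
        rw [← hc, Submodule.mem_map_equiv, LinearEquiv.symm_apply_apply] at hy
        exact hy)

theorem betti_transport (hd : ∀ x, φ (D.d x) = D'.d (φ x))
    (hdeg : ∀ j x, φ x ∈ D'.deg j ↔ x ∈ D.deg j) (j : ℤ) :
    D'.betti ⊤ ⊥ j = D.betti ⊤ ⊥ j :=
  (homologyEquiv D D' φ hd hdeg j).finrank_eq.symm

theorem chi_transport (hd : ∀ x, φ (D.d x) = D'.d (φ x))
    (hdeg : ∀ j x, φ x ∈ D'.deg j ↔ x ∈ D.deg j) : D'.chi ⊤ ⊥ = D.chi ⊤ ⊥ := by
  simp only [Diff.chi, betti_transport D D' φ hd hdeg]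

section Ring

variable {A B : Type*} [CommRing A] [CommRing B] [Algebra k A] [Algebra k B] (G : FreeCx A)
  (e : A ≃ₐ[k] B)

/-- The coordinatewise map induced by an isomorphism of rings. -/
def ringTransport : (G.ι → A) ≃ₗ[k] (G.ι → B) :=
  LinearEquiv.piCongrRight fun _ => e.toLinearEquiv

theorem chi_map_equiv :
    (G.map e.toRingEquiv.toRingHom).chi B k = G.chi A k := by
  refine chi_transport _ _ (ringTransport G e) (fun x => ?_) fun j x => ?_
  · funext h
    show e (∑ g, G.mat h g • x g) = ∑ g, e (G.mat h g) • e (x g)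
    simp [map_sum]
  · show (∀ g : G.ι, (G.pos g : ℤ) ≠ j → e (x g) = 0) ↔ _
    simp only [EmbeddingLike.map_eq_zero_iff]
    rfl

theorem finiteHom_map_equiv (h : G.FiniteHom A k) :
    (G.map e.toRingEquiv.toRingHom).FiniteHom B k := fun j => by
  haveI := h j
  refine Module.Finite.equiv (homologyEquiv (G.diff A k) _ (ringTransport G e) (fun x => ?_)
    (fun j x => ?_) j)
  · funext h
    show e (∑ g, G.mat h g • x g) = ∑ g, e (G.mat h g) • e (x g)
    simp [map_sum]
  · show (∀ g : G.ι, (G.pos g : ℤ) ≠ j → e (x g) = 0) ↔ _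
    simp only [EmbeddingLike.map_eq_zero_iff]
    rfl

end Ring

end Vale.Agent.P202.Diag
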