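import Vale.Agent.P202.Core
import Vale.Agent.P202.Diag.KunnethDim
import Vale.Agent.P202.Diag.Transport

/-!
# P202: the squaring construction
-/

noncomputable section

namespace Vale.Agent.P202.Diag

open MvPowerSeries Finset IsLocalRing

universe u

variable {k : Type u} [Field k]

/-- A ring map fixing constant coefficients sends powers of the maximal ideal into powers. -/
theorem map_mem_maximal_pow {σ τ : Type*} (φ : MvPowerSeries σ k →+* MvPowerSeries τ k)
    (hφ : ∀ x, constantCoeff (φ x) = constantCoeff x) (K : ℕ) {x : MvPowerSeries σ k}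
    (hx : x ∈ maximalIdeal (MvPowerSeries σ k) ^ K) :
    φ x ∈ maximalIdeal (MvPowerSeries τ k) ^ K := by
  have h1 : (maximalIdeal (MvPowerSeries σ k)).map φ ≤ maximalIdeal (MvPowerSeries τ k) := by
    rw [Ideal.map_le_iff_le_comap]
    intro y hy
    rw [Ideal.mem_comap, mem_maximalIdeal, mem_nonunits_iff, isUnit_iff_constantCoeff, hφ]
    rwa [mem_maximalIdeal, mem_nonunits_iff, isUnit_iff_constantCoeff] at hy
  have h2 := Ideal.mem_map_of_mem φ hx
  rw [Ideal.map_pow] at h2
  exact Ideal.pow_right_mono h1 K h2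

/-- The index equivalence. -/
def blockEquiv (k : Type u) [Field k] (a b : ℕ) :
    MvPowerSeries (Fin a ⊕ Fin b) k ≃ₐ[k] PS k (a + b) :=
  renameEquiv k finSumFinEquiv

/-- Squaring an admissible complex. -/
theorem square (K : ℕ) (D : ℕ) (G : FreeCx (PS k D)) (hG : Admissible K G) :
    ∃ G₂ : FreeCx (PS k (D + D)), Admissible K G₂ ∧
      G₂.chi (PS k (D + D)) k = G.chi (PS k D) k ^ 2 ∧ G₂.rank 0 = G.rank 0 ^ 2 := by
  classical
  obtain ⟨hlen, hchi⟩ := chi_prodCx hG.finite hG.finite hG.length hG.length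
  have hfin : (prodCx G G).FiniteHom (MvPowerSeries (Fin D ⊕ Fin D) k) k := fun j =>
    (kunneth hG.finite hG.finite hG.length j).1
  let e := blockEquiv k D D
  refine ⟨(prodCx G G).map e.toRingEquiv.toRingHom, ⟨hlen, ?_, finiteHom_map_equiv _ e hfin⟩, ?_, ?_⟩
  · rintro ⟨h, h'⟩ ⟨g, g'⟩
    have hcc : ∀ x, constantCoeff (e x) = constantCoeff x := fun x => constantCoeff_rename _ x
    have hX : e (inX (G.mat h g)) ∈ maximalIdeal (PS k (D + D)) ^ K :=
      map_mem_maximal_pow (e.toRingEquiv.toRingHom.comp inX)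
        (fun x => (hcc _).trans (constantCoeff_rename _ x)) K (hG.entries h g)
    have hY : e (inY (G.mat h' g')) ∈ maximalIdeal (PS k (D + D)) ^ K :=
      map_mem_maximal_pow (e.toRingEquiv.toRingHom.comp inY)
        (fun x => (hcc _).trans (constantCoeff_rename _ x)) K (hG.entries h' g')
    show e ((if h' = g' then inX (G.mat h g) else 0) +
      (if h = g then (-1) ^ G.pos h * inY (G.mat h' g') else 0)) ∈ _
    rw [map_add]
    refine Ideal.add_mem _ ?_ ?_
    · split_ifs
      · exact hX
      · simp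
    · split_ifs
      · rw [map_mul]
        exact Ideal.mul_mem_left _ _ hY
      · simp
  · rw [chi_map_equiv _ e, hchi, sq]
  · show (univ.filter fun g : G.ι × G.ι => G.pos g.1 + G.pos g.2 = 0).card = _
    rw [FreeCx.rank, sq, ← card_product]
    congr 1
    ext g
    simp [Nat.add_eq_zero_iff]

end Vale.Agent.P202.Diag
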