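import Vale.Agent.P202.Diag.SliceHom

/-!
# P202: Künneth formula for complexes in two blocks of variables

For `G` over `k[[X]]` and `G'` over `k[[Y]]` with finite-dimensional homology, products of basis
cycles give a basis of the homology of `G(X) ⊗ G'(Y)` over `k[[X, Y]]`.  The proof eliminates one
row at a time, using that homology in the `Y` direction is free over `k[[X]]`.
-/

noncomputable section

namespace Vale.Agent.P202.Diag

open MvPowerSeries Finset

variable {k : Type*} [Field k] {α β : Type*} [Finite α] [Finite β]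
  (G : FreeCx (MvPowerSeries α k)) (G' : FreeCx (MvPowerSeries β k))

/-- The product complex. -/
def prodCx : FreeCx (MvPowerSeries (α ⊕ β) k) :=
  (G.map (inX (β := β))).tensor (G'.map (inY (α := α)))

/-- Elements of the product complex on the ring. -/
abbrev PTot : Type _ := G.ι × G'.ι → MvPowerSeries (α ⊕ β) k

/-- The differential of the product complex. -/
def dT : PTot G G' →ₗ[k] PTot G G' where
  toFun F y := ∑ g, inX (G.mat y.1 g) * F (g, y.2) +
    (-1) ^ G.pos y.1 * dY G' (fun g' => F (y.1, g')) y.2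
  map_add' F F' := by
    funext y
    simp [dY, mul_add, sum_add_distrib]
    ring
  map_smul' c F := by
    funext y
    simp [dY, smul_add, smul_sum, mul_smul_comm, ← smul_sum]

theorem dA_prodCx (F : PTot G G') :
    (prodCx G G').dA (MvPowerSeries (α ⊕ β) k) F = dT G G' F := by
  refine funext fun (y : G.ι × G'.ι) => ?_
  obtain ⟨h, h'⟩ := y
  show ∑ q : G.ι × G'.ι, ((if h' = q.2 then inX (G.mat h q.1) else 0) +
      (if h = q.1 then (-1) ^ G.pos h * inY (G'.mat h' q.2) else 0)) * F q = _
  simp only [add_mul, ite_mul, zero_mul, sum_add_distrib]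
  rw [Fintype.sum_prod_type, Fintype.sum_prod_type]
  simp [dT, dY, Finset.mul_sum, mul_assoc]

variable {G G'}

/-- Supported in total position `j`. -/
def InDeg (j : ℤ) (F : PTot G G') : Prop :=
  ∀ y : G.ι × G'.ι, (G.pos y.1 : ℤ) + G'.pos y.2 ≠ j → F y = 0

theorem mem_deg_iff (j : ℤ) (F : PTot G G') :
    F ∈ ((prodCx G G').diff (MvPowerSeries (α ⊕ β) k) k).deg j ↔ InDeg j F := by
  show (∀ g : G.ι × G'.ι, (((G.pos g.1 + G'.pos g.2 : ℕ)) : ℤ) ≠ j → F g = 0) ↔ _
  simp only [InDeg, Nat.cast_add]

/-- A tensor of series in the first block with cycles of the second. -/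
def tens {h : ℕ} (z' : Fin h → G'.ι → MvPowerSeries β k) (c : Fin h → G.ι → MvPowerSeries α k) :
    PTot G G' :=
  fun y => comb z' (fun i => c i y.1) y.2

theorem comb_zero {h : ℕ} (z' : Fin h → G'.ι → MvPowerSeries β k) :
    comb (α := α) z' (fun _ => 0) = 0 := by
  funext g
  simp [comb]

theorem dT_tens {l : ℤ} {h : ℕ} {z' : Fin h → G'.ι → MvPowerSeries β k} (hz : HomBasis G' l z')
    (c : Fin h → G.ι → MvPowerSeries α k) :
    dT G G' (tens z' c) = tens z' (fun i => G.dA (MvPowerSeries α k) (c i)) := by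
  funext y
  have e : dY G' (fun g' => tens z' c (y.1, g')) = 0 := hz.dY_comb (fun i => c i y.1)
  simp only [dT, LinearMap.coe_mk, AddHom.coe_mk, e, Pi.zero_apply, mul_zero, add_zero]
  simp only [tens, comb, FreeCx.dA_apply, mul_sum, map_sum, smul_eq_mul, map_mul, sum_mul]
  rw [sum_comm]
  simp only [mul_assoc]

theorem tens_inDeg {p l : ℤ} {h : ℕ} {z' : Fin h → G'.ι → MvPowerSeries β k}
    (hz : HomBasis G' l z') {c : Fin h → G.ι → MvPowerSeries α k}
    (hc : ∀ i g, (G.pos g : ℤ) ≠ p → c i g = 0) {j : ℤ} (hj : j = p + l) :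
    InDeg j (tens z' c) := by
  intro y hy
  show ∑ i, inX (c i y.1) * inY (z' i y.2) = 0
  refine sum_eq_zero fun i _ => ?_
  by_cases h1 : (G.pos y.1 : ℤ) = p
  · rw [hz.supp i y.2 (by omega), map_zero, mul_zero]
  · rw [hc i y.1 h1, map_zero, zero_mul]

theorem tens_row_zero {p : ℤ} {h : ℕ} {z' : Fin h → G'.ι → MvPowerSeries β k}
    {c : Fin h → G.ι → MvPowerSeries α k} (hc : ∀ i g, (G.pos g : ℤ) ≠ p → c i g = 0)
    (y : G.ι × G'.ι) (hy : (G.pos y.1 : ℤ) ≠ p) : tens z' c y = 0 := by
  show ∑ i, inX (c i y.1) * inY (z' i y.2) = 0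
  exact sum_eq_zero fun i _ => by rw [hc i y.1 hy, map_zero, zero_mul]

/-- If rows above `q` vanish then so do rows above `q` of the differential, and row `q` only
sees the second block. -/
theorem dT_top_row {F : PTot G G'} {q : ℤ} (hF : ∀ y, q < (G.pos y.1 : ℤ) → F y = 0)
    (y : G.ι × G'.ι) (hy : q ≤ (G.pos y.1 : ℤ)) :
    dT G G' F y = (-1) ^ G.pos y.1 * dY G' (fun g' => F (y.1, g')) y.2 := by
  show ∑ g, inX (G.mat y.1 g) * F (g, y.2) +
    (-1) ^ G.pos y.1 * dY G' (fun g' => F (y.1, g')) y.2 = _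
  rw [sum_eq_zero, zero_add]
  intro g _
  by_cases hm : G.mat y.1 g = 0
  · rw [hm, map_zero, zero_mul]
  · have := G.mat_pos y.1 g hm
    rw [hF (g, y.2) (by push_cast [this]; omega), mul_zero]

theorem dT_above {F : PTot G G'} {q : ℤ} (hF : ∀ y, q < (G.pos y.1 : ℤ) → F y = 0)
    (y : G.ι × G'.ι) (hy : q < (G.pos y.1 : ℤ)) : dT G G' F y = 0 := by
  rw [dT_top_row hF y hy.le, dY, sum_eq_zero, mul_zero]
  exact fun g _ => by rw [hF (y.1, g) hy, mul_zero]

/-- The product classes of one row. -/
def pairing {p l : ℤ} {h h' : ℕ} {z : Fin h → G.ι → MvPowerSeries α k}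
    {z' : Fin h' → G'.ι → MvPowerSeries β k} (_hz : HomBasis G p z) (_hz' : HomBasis G' l z') :
    (Fin h → Fin h' → k) →ₗ[k] PTot G G' where
  toFun a := tens z' (fun i' => ∑ i, a i i' • z i)
  map_add' a b := by
    funext y
    simp [tens, comb, add_smul, sum_add_distrib, map_sum, add_mul]
  map_smul' c a := by
    funext y
    simp only [tens, comb, Pi.smul_apply, smul_eq_mul, mul_smul, RingHom.id_apply, smul_sum]
    refine sum_congr rfl fun i' _ => ?_
    rw [← smul_mul_assoc]
    congr 1
    simp [inX, map_sum, map_smul, smul_sum]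

section Row

variable {p l : ℤ} {h h' : ℕ} {z : Fin h → G.ι → MvPowerSeries α k}
  {z' : Fin h' → G'.ι → MvPowerSeries β k} (hz : HomBasis G p z) (hz' : HomBasis G' l z')

include hz in
omit [Finite α] in
theorem combX_supp (a : Fin h → Fin h' → k) (i' : Fin h') (g : G.ι) (hg : (G.pos g : ℤ) ≠ p) :
    (∑ i, a i i' • z i) g = 0 := by
  simp [hz.supp _ g hg]

theorem pairing_inDeg (a : Fin h → Fin h' → k) {j : ℤ} (hj : j = p + l) :
    InDeg j (pairing hz hz' a) :=
  tens_inDeg hz' (combX_supp hz a) hj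

theorem pairing_row_zero (a : Fin h → Fin h' → k) (y : G.ι × G'.ι) (hy : (G.pos y.1 : ℤ) ≠ p) :
    pairing hz hz' a y = 0 :=
  tens_row_zero (combX_supp hz a) y hy

theorem dT_pairing (a : Fin h → Fin h' → k) : dT G G' (pairing hz hz' a) = 0 := by
  refine (dT_tens hz' _).trans ?_
  funext y
  show ∑ i', inX ((G.dA (MvPowerSeries α k)) (∑ i, a i i' • z i) y.1) * inY (z' i' y.2) = 0
  refine sum_eq_zero fun i' _ => ?_
  simp [map_sum, LinearMap.map_smul_of_tower, hz.cyc]

/-- A product combination which is a boundary in the second block vanishes. -/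
theorem pairing_zero (a : Fin h → Fin h' → k) (v : G.ι → G'.ι → MvPowerSeries (α ⊕ β) k)
    (hv : ∀ g g', (G'.pos g' : ℤ) ≠ l + 1 → v g g' = 0)
    (he : ∀ g, (G.pos g : ℤ) = p → ∀ g', pairing hz hz' a (g, g') = dY G' (v g) g') : a = 0 := by
  have h0 : ∀ i' g, (∑ i, a i i' • z i) g = 0 := by
    intro i' g
    by_cases hg : (G.pos g : ℤ) = p
    · exact congrFun (hz'.comb_inj (fun i' => (∑ i, a i i' • z i) g) (v g) (hv g)
        (funext fun g' => he g hg g')) i'
    · exact combX_supp hz a i' g hg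
  funext i i'
  have := hz.indep (fun i => a i i') 0 (fun g _ => rfl) (by rw [map_zero]; exact funext (h0 i'))
  exact congrFun this i

end Row

/-- One step of row elimination at row `p = q + 1`. -/
theorem row_step {p q l : ℤ} (hpq : p = q + 1) {h₀ h h' : ℕ}
    {z₀ : Fin h₀ → G.ι → MvPowerSeries α k} {z : Fin h → G.ι → MvPowerSeries α k}
    {z' : Fin h' → G'.ι → MvPowerSeries β k}
    (hz₀ : HomBasis G q z₀) (hz : HomBasis G p z) (hz' : HomBasis G' l z')
    (a : Fin h₀ → Fin h' → k) (F : PTot G G') (hdeg : InDeg (p + l) F)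
    (htop : ∀ y, p < (G.pos y.1 : ℤ) → F y = 0)
    (hp : ∀ y : G.ι × G'.ι, (G.pos y.1 : ℤ) = p → dT G G' F y = 0)
    (hq : ∀ y : G.ι × G'.ι, (G.pos y.1 : ℤ) = q → dT G G' F y = pairing hz₀ hz' a y) :
    a = 0 ∧ ∃ (b : Fin h → Fin h' → k) (v : PTot G G'), InDeg (p + l + 1) v ∧
      ∀ y, q < (G.pos y.1 : ℤ) → (F - dT G G' v - pairing hz hz' b) y = 0 := by
  classical
  have hrow : ∀ g, ∃ (c : Fin h' → MvPowerSeries α k) (v : G'.ι → MvPowerSeries (α ⊕ β) k),
      ((G.pos g : ℤ) ≠ p → c = 0 ∧ v = 0) ∧ (∀ g', (G'.pos g' : ℤ) ≠ l + 1 → v g' = 0) ∧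
      ((G.pos g : ℤ) = p → (fun g' => F (g, g')) = comb z' c + dY G' v) := by
    intro g
    by_cases hg : (G.pos g : ℤ) = p
    · have hd : dY G' (fun g' => F (g, g')) = 0 := by
        funext g'
        have := hp (g, g') hg
        rw [dT_top_row htop (g, g') (by simp [hg])] at this
        exact (IsUnit.mul_right_eq_zero ((isUnit_one.neg).pow _)).mp this
      obtain ⟨c, v, hv, e⟩ := hz'.comb_surj (fun g' => F (g, g'))
        (fun g' hg' => hdeg (g, g') (by simp only; omega)) hd
      exact ⟨c, v, fun h => absurd hg h, hv, fun _ => e⟩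
    · exact ⟨0, 0, fun _ => ⟨rfl, rfl⟩, fun _ _ => rfl, fun h => absurd h hg⟩
  choose c v hcv hv he using hrow
  set C : Fin h' → G.ι → MvPowerSeries α k := fun i' g => c g i' with hC
  have hCsupp : ∀ i' g, (G.pos g : ℤ) ≠ p → C i' g = 0 := fun i' g hg => by
    simp [hC, (hcv g hg).1]
  set V : PTot G G' := fun y => (-1) ^ G.pos y.1 * v y.1 y.2 with hV
  have hVrow : ∀ y : G.ι × G'.ι, (G.pos y.1 : ℤ) ≠ p → V y = 0 := fun y hy => by
    simp [hV, (hcv y.1 hy).2]
  have hVdeg : InDeg (p + l + 1) V := fun y hy => by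
    by_cases h1 : (G.pos y.1 : ℤ) = p
    · simp [hV, hv y.1 y.2 (by omega)]
    · exact hVrow y h1
  set F1 := F - dT G G' V with hF1
  have htopV : ∀ y : G.ι × G'.ι, p < (G.pos y.1 : ℤ) → V y = 0 := fun y hy => hVrow y (by omega)
  have htop1 : ∀ y : G.ι × G'.ι, p < (G.pos y.1 : ℤ) → F1 y = 0 := fun y hy => by
    simp [hF1, htop y hy, dT_above htopV y hy]
  have hrow1 : ∀ y : G.ι × G'.ι, (G.pos y.1 : ℤ) = p → F1 y = tens z' C y := by
    intro y hy
    have e1 : dY G' (fun g' => V (y.1, g')) y.2 = (-1) ^ G.pos y.1 * dY G' (v y.1) y.2 := by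
      simp [hV, dY, mul_sum, mul_left_comm]
    have e2 := congrFun (he y.1 hy) y.2
    simp only [hF1, Pi.sub_apply, dT_top_row htopV y hy.ge, e1]
    rw [← mul_assoc, ← pow_add, ← two_mul, pow_mul, neg_one_sq, one_pow, one_mul, e2]
    simp [tens, hC]
  -- the equation in row `q`
  set C' : Fin h' → G.ι → MvPowerSeries α k := fun i' => ∑ i, a i i' • z₀ i with hC'
  have hdC : ∀ i', G.dA (MvPowerSeries α k) (C i') = C' i' := by
    intro i'
    funext g
    by_cases hg : (G.pos g : ℤ) = q
    · have key : comb z' (fun i' => G.dA (MvPowerSeries α k) (C i') g - C' i' g)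
          = dY G' (fun g' => -((-1) ^ G.pos g * (F1 - tens z' C) (g, g'))) := by
        funext g'
        have e1 : dT G G' F1 (g, g') = pairing hz₀ hz' a (g, g') := by
          rw [← hq (g, g') hg, hF1, map_sub, Pi.sub_apply]
          have : dT G G' (dT G G' V) = 0 := by
            rw [← dA_prodCx, ← dA_prodCx]
            exact FreeCx.dA_dA _ _ _
          simp [this]
        have e2 : dT G G' (F1 - tens z' C) (g, g') = (-1) ^ G.pos g
            * dY G' (fun g' => (F1 - tens z' C) (g, g')) g' := by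
          refine dT_top_row (q := q) (fun y hy => ?_) (g, g') (by simp [hg])
          rcases (show (G.pos y.1 : ℤ) = p ∨ p < (G.pos y.1 : ℤ) by omega) with h1 | h1
          · simp [hrow1 y h1]
          · simp [htop1 y h1, tens_row_zero hCsupp y (by omega)]
        rw [map_sub, Pi.sub_apply, e1, dT_tens hz'] at e2
        have e3 : comb z' (fun i' => G.dA (MvPowerSeries α k) (C i') g - C' i' g) g'
            = tens z' (fun i' => G.dA (MvPowerSeries α k) (C i')) (g, g')
              - pairing hz₀ hz' a (g, g') := by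
          show _ = comb z' _ g' - comb z' _ g'
          simp [comb, sub_mul, sum_sub_distrib, hC']
        rw [e3]
        simp only [dY, mul_neg, sum_neg_distrib, Pi.sub_apply] at e2 ⊢
        simp only [mul_left_comm (inY _) ((-1 : MvPowerSeries (α ⊕ β) k) ^ G.pos g), ← mul_sum]
        rw [← e2]
        ring
      have := congrFun (hz'.comb_inj _ _ (fun g' hg' => ?_) key) i'
      · exact sub_eq_zero.mp this
      · show -((-1 : MvPowerSeries (α ⊕ β) k) ^ G.pos g * (F1 (g, g') - tens z' C (g, g'))) = 0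
        rw [tens_row_zero hCsupp (g, g') (by simp only; omega)]
        simp only [hF1, Pi.sub_apply, sub_zero]
        rw [hdeg (g, g') (by simp only; omega)]
        have hdV : dT G G' V (g, g') = 0 := by
          have := ((prodCx G G').diff (MvPowerSeries (α ⊕ β) k) k).d_deg _ V
            ((mem_deg_iff _ _).mpr hVdeg)
          rw [add_sub_cancel_right] at this
          have h2 := (mem_deg_iff _ _).mp this (g, g') (by simp only; omega)
          exact (congrFun (dA_prodCx G G' V) (g, g')).symm.trans h2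
        simp [hdV]
    · have : G.dA (MvPowerSeries α k) (C i') g = 0 := by
        rw [FreeCx.dA_apply]
        refine sum_eq_zero fun g2 _ => ?_
        by_cases hm : G.mat g g2 = 0
        · simp [hm]
        · have := G.mat_pos g g2 hm
          rw [hCsupp i' g2 (by push_cast [this]; omega), smul_zero]
      rw [this, hC']
      simp [hz₀.supp _ g hg]
  have ha : a = 0 := by
    funext i i'
    have := hz₀.indep (fun i => a i i') (C i') (fun g hg => hCsupp i' g (by omega))
      (by rw [hdC i'])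
    exact congrFun this i
  have hcyc : ∀ i', G.dA (MvPowerSeries α k) (C i') = 0 := fun i' => by
    rw [hdC i', hC', ha]; simp
  choose b w hw hbw using fun i' => hz.span (C i') (hCsupp i') (hcyc i')
  refine ⟨ha, fun i i' => b i' i, V + tens z' w, ?_, ?_⟩
  · intro y hy
    have := tens_inDeg hz' (p := p + 1) hw (j := p + l + 1) (by ring) y hy
    simp [hVdeg y hy, this]
  · intro y hy
    have hsum : F - dT G G' (V + tens z' w) - pairing hz hz' (fun i i' => b i' i)
        = F1 - tens z' C := by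
      have e : tens z' C = dT G G' (tens z' w) + pairing hz hz' (fun i i' => b i' i) := by
        rw [dT_tens hz']
        funext y
        show comb z' _ y.2 = comb z' _ y.2 + comb z' _ y.2
        simp only [comb, ← sum_add_distrib, ← add_mul, ← map_add]
        refine sum_congr rfl fun i' _ => ?_
        congr 2
        rw [hbw i']
        simp [add_comm]
      rw [map_add, hF1, e]
      abel
    rw [hsum]
    rcases (show (G.pos y.1 : ℤ) = p ∨ p < (G.pos y.1 : ℤ) by omega) with h1 | h1
    · simp [hrow1 y h1]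
    · simp [htop1 y h1, tens_row_zero hCsupp y (by omega)]

end Vale.Agent.P202.Diag
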