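import Mathlib

/-!
# P202: power series in two blocks of variables, sliced along the first block
-/

noncomputable section

namespace Vale.Agent.P202.Diag

open MvPowerSeries Finset

variable {k : Type*} [CommRing k] {α β : Type*}

/-- The exponent with given parts in the two blocks. -/
def pr (a : α →₀ ℕ) (b : β →₀ ℕ) : α ⊕ β →₀ ℕ := Finsupp.sumFinsuppAddEquivProdFinsupp.symm (a, b)

/-- The part of an exponent in the first block. -/
def fstPart (c : α ⊕ β →₀ ℕ) : α →₀ ℕ := (Finsupp.sumFinsuppAddEquivProdFinsupp c).1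

/-- The part of an exponent in the second block. -/
def sndPart (c : α ⊕ β →₀ ℕ) : β →₀ ℕ := (Finsupp.sumFinsuppAddEquivProdFinsupp c).2

@[simp] theorem pr_parts (c : α ⊕ β →₀ ℕ) : pr (fstPart c) (sndPart c) = c :=
  Finsupp.sumFinsuppAddEquivProdFinsupp.symm_apply_apply c

@[simp] theorem fstPart_pr (a : α →₀ ℕ) (b : β →₀ ℕ) : fstPart (pr a b) = a := by
  simp [fstPart, pr]

@[simp] theorem sndPart_pr (a : α →₀ ℕ) (b : β →₀ ℕ) : sndPart (pr a b) = b := by
  simp [sndPart, pr]

theorem coeff_pr_mul [DecidableEq α] [DecidableEq β] (F G : MvPowerSeries (α ⊕ β) k) (a : α →₀ ℕ) (b : β →₀ ℕ) :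
    coeff (pr a b) (F * G) =
      ∑ p ∈ antidiagonal a, ∑ q ∈ antidiagonal b,
        coeff (pr p.1 q.1) F * coeff (pr p.2 q.2) G := by
  rw [coeff_mul, ← sum_product']
  refine sum_bij' (fun c _ => ((fstPart c.1, fstPart c.2), (sndPart c.1, sndPart c.2)))
    (fun d _ => (pr d.1.1 d.2.1, pr d.1.2 d.2.2)) ?_ ?_ ?_ ?_ ?_
  · intro c hc
    rw [HasAntidiagonal.mem_antidiagonal] at hc
    simp only [mem_product, HasAntidiagonal.mem_antidiagonal, fstPart, sndPart, ← Prod.fst_add, ← Prod.snd_add,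
      ← map_add, hc]
    simp [pr]
  · intro d hd
    simp only [mem_product, HasAntidiagonal.mem_antidiagonal] at hd ⊢
    simp only [pr, ← map_add, Prod.mk_add_mk, hd.1, hd.2]
  · intro c _; simp
  · intro d _; simp
  · intro c _; simp

/-- The slice at an exponent of the first block. -/
def slice (a : α →₀ ℕ) : MvPowerSeries (α ⊕ β) k →ₗ[k] MvPowerSeries β k where
  toFun f := fun b => coeff (pr a b) f
  map_add' f g := by funext b; exact (coeff (pr a b)).map_add f g
  map_smul' c f := by funext b; exact (coeff (pr a b)).map_smul c f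

theorem coeff_slice (a : α →₀ ℕ) (f : MvPowerSeries (α ⊕ β) k) (b : β →₀ ℕ) :
    coeff b (slice a f) = coeff (pr a b) f := rfl

/-- The series with given slices. -/
def unslice (F : (α →₀ ℕ) → MvPowerSeries β k) : MvPowerSeries (α ⊕ β) k :=
  fun c => coeff (sndPart c) (F (fstPart c))

@[simp] theorem slice_unslice (F : (α →₀ ℕ) → MvPowerSeries β k) (a : α →₀ ℕ) :
    slice a (unslice F) = F a := by
  ext b
  show coeff (sndPart (pr a b)) (F (fstPart (pr a b))) = _
  simp

theorem slice_ext {f g : MvPowerSeries (α ⊕ β) k} (h : ∀ a, slice a f = slice a g) : f = g := by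
  ext c
  rw [← pr_parts c, ← coeff_slice, ← coeff_slice, h]

section Rename

variable [Finite α] [Finite β]

/-- The first block. -/
def inX : MvPowerSeries α k →+* MvPowerSeries (α ⊕ β) k :=
  (rename (⟨Sum.inl, Sum.inl_injective⟩ : α ↪ α ⊕ β)).toRingHom

/-- The second block. -/
def inY : MvPowerSeries β k →+* MvPowerSeries (α ⊕ β) k :=
  (rename (⟨Sum.inr, Sum.inr_injective⟩ : β ↪ α ⊕ β)).toRingHom

omit [Finite α] [Finite β] in
theorem embDomain_inl (a : α →₀ ℕ) :
    Finsupp.embDomain (⟨Sum.inl, Sum.inl_injective⟩ : α ↪ α ⊕ β) a = pr a 0 := by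
  ext (i | j)
  · rw [show (Sum.inl i : α ⊕ β) = (⟨Sum.inl, Sum.inl_injective⟩ : α ↪ α ⊕ β) i from rfl,
      Finsupp.embDomain_apply_self]
    rfl
  · rw [Finsupp.embDomain_of_notMem_range _ _ _ (by simp)]
    rfl

omit [Finite α] [Finite β] in
theorem embDomain_inr (b : β →₀ ℕ) :
    Finsupp.embDomain (⟨Sum.inr, Sum.inr_injective⟩ : β ↪ α ⊕ β) b = pr 0 b := by
  ext (i | j)
  · rw [Finsupp.embDomain_of_notMem_range _ _ _ (by simp)]
    rfl
  · rw [show (Sum.inr j : α ⊕ β) = (⟨Sum.inr, Sum.inr_injective⟩ : β ↪ α ⊕ β) j from rfl,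
      Finsupp.embDomain_apply_self]
    rfl

theorem coeff_inX [DecidableEq β] (c : MvPowerSeries α k) (a : α →₀ ℕ) (b : β →₀ ℕ) :
    coeff (pr a b) (inX c) = if b = 0 then coeff a c else 0 := by
  split_ifs with h
  · subst h
    rw [← embDomain_inl]
    exact coeff_embDomain_rename _ c a
  · refine coeff_rename_eq_zero _ c fun ⟨x, hx⟩ => h ?_
    rw [← Finsupp.embDomain_eq_mapDomain, embDomain_inl] at hx
    simpa using (congrArg sndPart hx).symm

theorem coeff_inY [DecidableEq α] (g : MvPowerSeries β k) (a : α →₀ ℕ) (b : β →₀ ℕ) :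
    coeff (pr a b) (inY g) = if a = 0 then coeff b g else 0 := by
  split_ifs with h
  · subst h
    rw [← embDomain_inr]
    exact coeff_embDomain_rename _ g b
  · refine coeff_rename_eq_zero _ g fun ⟨x, hx⟩ => h ?_
    rw [← Finsupp.embDomain_eq_mapDomain, embDomain_inr] at hx
    simpa using (congrArg fstPart hx).symm

theorem slice_inY_mul (g : MvPowerSeries β k) (f : MvPowerSeries (α ⊕ β) k) (a : α →₀ ℕ) :
    slice a (inY g * f) = g * slice a f := by
  classical
  ext b
  rw [coeff_slice, coeff_pr_mul, coeff_mul, sum_eq_single ((0 : α →₀ ℕ), a)]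
  · refine sum_congr rfl fun q _ => ?_
    rw [coeff_inY, if_pos rfl, coeff_slice]
  · intro p hp hne
    refine sum_eq_zero fun q _ => ?_
    rw [coeff_inY, if_neg, zero_mul]
    intro h
    refine hne (Prod.ext h ?_)
    rw [HasAntidiagonal.mem_antidiagonal, h, zero_add] at hp
    exact hp
  · intro h; simp at h

theorem slice_inX_mul_inY (c : MvPowerSeries α k) (g : MvPowerSeries β k) (a : α →₀ ℕ) :
    slice a (inX c * inY g) = coeff a c • g := by
  rw [mul_comm, slice_inY_mul]
  classical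
  ext b
  rw [map_smul, smul_eq_mul, coeff_mul, sum_eq_single (b, (0 : β →₀ ℕ))]
  · rw [coeff_slice, coeff_inX, if_pos rfl, mul_comm]
  · intro q hq hne
    rw [coeff_slice, coeff_inX, if_neg, mul_zero]
    intro h
    refine hne (Prod.ext ?_ h)
    rw [HasAntidiagonal.mem_antidiagonal, h, add_zero] at hq
    exact hq
  · intro h; simp at h

end Rename

end Vale.Agent.P202.Diag
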