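import Vale.Agent.P202.Base
import Vale.Agent.P202.Diag.Slice

/-!
# P202: homology of a complex in the second block of variables

If classes of `z i` form a basis of the homology over `k[[Y]]` in one position, then over
`k[[X, Y]]` the cycles are, uniquely modulo boundaries, series in `X` combinations of the `z i`.
-/

noncomputable section

namespace Vale.Agent.P202.Diag

open MvPowerSeries

variable {k : Type*} [Field k] {α β : Type*}

/-- The classes of `z` form a basis of the homology in position `l`. -/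
structure HomBasis (G : FreeCx (MvPowerSeries β k)) (l : ℤ) {h : ℕ}
    (z : Fin h → G.ι → MvPowerSeries β k) : Prop where
  supp : ∀ i g, (G.pos g : ℤ) ≠ l → z i g = 0
  cyc : ∀ i, G.dA (MvPowerSeries β k) (z i) = 0
  span : ∀ φ : G.ι → MvPowerSeries β k, (∀ g, (G.pos g : ℤ) ≠ l → φ g = 0) →
    G.dA (MvPowerSeries β k) φ = 0 → ∃ (a : Fin h → k) (w : G.ι → MvPowerSeries β k),
      (∀ g, (G.pos g : ℤ) ≠ l + 1 → w g = 0) ∧ φ = ∑ i, a i • z i + G.dA (MvPowerSeries β k) w
  indep : ∀ (a : Fin h → k) (w : G.ι → MvPowerSeries β k),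
    (∀ g, (G.pos g : ℤ) ≠ l + 1 → w g = 0) → ∑ i, a i • z i = G.dA (MvPowerSeries β k) w → a = 0

theorem exists_homBasis (G : FreeCx (MvPowerSeries β k)) (hG : G.FiniteHom (MvPowerSeries β k) k)
    (l : ℤ) : ∃ z : Fin (G.homDim (MvPowerSeries β k) k l) → G.ι → MvPowerSeries β k,
      HomBasis G l z := by
  classical
  set Δ := G.diff (MvPowerSeries β k) k
  haveI : Module.Finite k (Δ.H ⊤ ⊥ l) := hG l
  let bas : Module.Basis (Fin (G.homDim (MvPowerSeries β k) k l)) k (Δ.H ⊤ ⊥ l) :=
    Module.finBasis k (Δ.H ⊤ ⊥ l)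
  choose z hz using fun i => Submodule.Quotient.mk_surjective _ (bas i)
  have mem : ∀ f : G.ι → MvPowerSeries β k, f ∈ Δ.cycles ⊤ ⊥ l ↔
      (∀ g, (G.pos g : ℤ) ≠ l → f g = 0) ∧ G.dA (MvPowerSeries β k) f = 0 := by
    intro f
    simp [Diff.cycles]
    rfl
  have zero : ∀ f : Δ.cycles ⊤ ⊥ l, (Submodule.Quotient.mk f : Δ.H ⊤ ⊥ l) = 0 ↔
      ∃ w, (∀ g, (G.pos g : ℤ) ≠ l + 1 → w g = 0) ∧ G.dA (MvPowerSeries β k) w = f.1 := by
    intro f
    rw [Submodule.Quotient.mk_eq_zero]
    simp [Diff.bdries]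
    rfl
  refine ⟨fun i => (z i).1, fun i => ((mem _).mp (z i).2).1, fun i => ((mem _).mp (z i).2).2,
    fun φ h1 h2 => ?_, fun a w h1 h2 => ?_⟩
  · have hφ : φ ∈ Δ.cycles ⊤ ⊥ l := (mem φ).mpr ⟨h1, h2⟩
    set a := fun i => bas.repr (Submodule.Quotient.mk ⟨φ, hφ⟩) i
    have key : (Submodule.Quotient.mk (⟨φ, hφ⟩ - ∑ i, a i • z i) : Δ.H ⊤ ⊥ l) = 0 := by
      rw [← Submodule.mkQ_apply, map_sub, map_sum]
      simp only [map_smul, Submodule.mkQ_apply, hz]
      exact sub_eq_zero.mpr (bas.sum_repr _).symm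
    obtain ⟨w, hw1, hw2⟩ := (zero _).mp key
    refine ⟨a, w, hw1, ?_⟩
    rw [hw2]
    simp
  · have key : ∑ i, a i • bas i = 0 := by
      have e : ∑ i, a i • bas i = (Submodule.Quotient.mk (∑ i, a i • z i) : Δ.H ⊤ ⊥ l) := by
        rw [← Submodule.mkQ_apply, map_sum]
        simp only [map_smul, Submodule.mkQ_apply, hz]
      rw [e]
      exact (zero _).mpr ⟨w, h1, by rw [← h2]; simp⟩
    funext i
    exact Fintype.linearIndependent_iff.mp bas.linearIndependent a key i

variable [Finite α] [Finite β] {G : FreeCx (MvPowerSeries β k)} {l : ℤ} {h : ℕ}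
  {z : Fin h → G.ι → MvPowerSeries β k}

/-- The combination with series coefficients in the first block. -/
def comb (z : Fin h → G.ι → MvPowerSeries β k) (c : Fin h → MvPowerSeries α k) :
    G.ι → MvPowerSeries (α ⊕ β) k :=
  fun g => ∑ i, inX (c i) * inY (z i g)

/-- The differential in the second block. -/
def dY (G : FreeCx (MvPowerSeries β k)) (f : G.ι → MvPowerSeries (α ⊕ β) k) :
    G.ι → MvPowerSeries (α ⊕ β) k :=
  fun g' => ∑ g, inY (G.mat g' g) * f g

theorem slice_comb (c : Fin h → MvPowerSeries α k) (a : α →₀ ℕ) (g : G.ι) :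
    slice a (comb z c g) = (∑ i, coeff a (c i) • z i) g := by
  simp [comb, map_sum, slice_inX_mul_inY]

theorem slice_dY (f : G.ι → MvPowerSeries (α ⊕ β) k) (a : α →₀ ℕ) (g : G.ι) :
    slice a (dY G f g) = G.dA (MvPowerSeries β k) (fun g => slice a (f g)) g := by
  simp [dY, map_sum, slice_inY_mul, FreeCx.dA_apply]

theorem HomBasis.dY_comb (hz : HomBasis G l z) (c : Fin h → MvPowerSeries α k) :
    dY G (comb z c) = 0 := by
  funext g
  refine slice_ext fun a => ?_
  rw [slice_dY]
  have : (fun g => slice a (comb z c g)) = ∑ i, coeff a (c i) • z i :=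
    funext fun g => slice_comb c a g
  rw [this, map_sum]
  simp [LinearMap.map_smul_of_tower, hz.cyc]

/-- Cycles are combinations modulo boundaries. -/
theorem HomBasis.comb_surj (hz : HomBasis G l z) (f : G.ι → MvPowerSeries (α ⊕ β) k)
    (hf : ∀ g, (G.pos g : ℤ) ≠ l → f g = 0) (hd : dY G f = 0) :
    ∃ (c : Fin h → MvPowerSeries α k) (v : G.ι → MvPowerSeries (α ⊕ β) k),
      (∀ g, (G.pos g : ℤ) ≠ l + 1 → v g = 0) ∧ f = comb z c + dY G v := by
  have hsl : ∀ a : α →₀ ℕ, ∃ (c : Fin h → k) (w : G.ι → MvPowerSeries β k),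
      (∀ g, (G.pos g : ℤ) ≠ l + 1 → w g = 0) ∧
      (fun g => slice a (f g)) = ∑ i, c i • z i + G.dA (MvPowerSeries β k) w := by
    refine fun a => hz.span _ (fun g hg => by rw [hf g hg, map_zero]) ?_
    funext g
    rw [← slice_dY, hd]
    simp
  choose c w hw hcw using hsl
  refine ⟨fun i a => c a i, fun g => unslice fun a => w a g, fun g hg => slice_ext fun a => ?_,
    funext fun g => slice_ext fun a => ?_⟩
  · rw [slice_unslice, map_zero]
    exact hw a g hg
  · rw [Pi.add_apply, map_add, slice_dY]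
    simp only [slice_unslice]
    refine (congrFun (hcw a) g).trans ?_
    exact congrArg (· + _) (slice_comb (z := z) (fun i a => c a i) a g).symm

/-- A combination which is a boundary is zero. -/
theorem HomBasis.comb_inj (hz : HomBasis G l z) (c : Fin h → MvPowerSeries α k)
    (v : G.ι → MvPowerSeries (α ⊕ β) k) (hv : ∀ g, (G.pos g : ℤ) ≠ l + 1 → v g = 0)
    (he : comb z c = dY G v) : c = 0 := by
  funext i
  ext a
  have := hz.indep (fun i => coeff a (c i)) (fun g => slice a (v g))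
    (fun g hg => by rw [hv g hg, map_zero]) (funext fun g => by
      rw [← slice_comb, he, slice_dY])
  simpa using congrFun this i

end Vale.Agent.P202.Diag
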