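import Mathlib

/-!
# P202: finite free resolutions over power series rings

A resolution of `M/YM` over `A/(Y)` lifts, by Nakayama, to one of `M` over `A` when `Y` is regular
on `M`; so by induction on the number of variables every finite module over `k[[X_0..X_{n-1}]]`
has a finite free resolution.
-/

noncomputable section

namespace Vale.Agent.P202.Diag

universe u v

/-- `M` has a resolution by finite free modules of length at most `n`. -/
def FinRes (A : Type u) [CommRing A] :
    ℕ → ∀ (M : Type u) [AddCommGroup M] [Module A M], Prop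
  | 0, M, _, _ => ∃ m : ℕ, Nonempty (M ≃ₗ[A] (Fin m → A))
  | n + 1, M, _, _ =>
      ∃ (m : ℕ) (f : (Fin m → A) →ₗ[A] M), Function.Surjective f ∧ FinRes A n (LinearMap.ker f)

variable {A B : Type u} [CommRing A] [CommRing B] (π : A →+* B) (Y : A)

/-- Lifting of a resolution along the quotient by a regular element. -/
theorem finRes_lift [IsLocalRing A] [IsNoetherianRing A] [IsDomain A] (hπ : Function.Surjective π)
    (hker : ∀ a, π a = 0 ↔ Y ∣ a) (hY : Y ∈ IsLocalRing.maximalIdeal A) (hY0 : Y ≠ 0) :
    ∀ (n : ℕ) (M : Type u) [AddCommGroup M] [Module A M] [Module.Finite A M]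
      (Q : Type u) [AddCommGroup Q] [Module B Q] (q : M →ₛₗ[π] Q),
      Function.Surjective q → (∀ x, q x = 0 ↔ ∃ y, x = Y • y) →
      (∀ y : M, Y • y = 0 → y = 0) → FinRes B n Q → FinRes A n M := by
  classical
  have hJ : Ideal.span {Y} ≤ (⊥ : Ideal A).jacobson := by
    rw [IsLocalRing.jacobson_eq_maximalIdeal ⊥ (by simp)]
    exact (Ideal.span_singleton_le_iff_mem _).mpr hY
  have cover : ∀ (M : Type u) [AddCommGroup M] [Module A M] [Module.Finite A M] (N : Submodule A M),
      (∀ x, ∃ a ∈ N, ∃ y, x = a + Y • y) → N = ⊤ := by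
    intro M _ _ _ N h
    refine top_le_iff.mp (Submodule.le_of_le_smul_of_le_jacobson_bot Module.Finite.fg_top hJ ?_)
    intro x _
    obtain ⟨a, ha, y, rfl⟩ := h x
    exact Submodule.add_mem_sup ha
      (Submodule.smul_mem_smul (Ideal.mem_span_singleton_self Y) trivial)
  have prep : ∀ (M : Type u) [AddCommGroup M] [Module A M] [Module.Finite A M]
      (Q : Type u) [AddCommGroup Q] [Module B Q] (q : M →ₛₗ[π] Q),
      Function.Surjective q → (∀ x, q x = 0 ↔ ∃ y, x = Y • y) →
      ∀ (m : ℕ) (g : (Fin m → B) →ₗ[B] Q), Function.Surjective g →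
      ∃ f : (Fin m → A) →ₗ[A] M, Function.Surjective f ∧
        ∀ a, q (f a) = g (fun i => π (a i)) := by
    intro M _ _ _ Q _ _ q hq hqk m g hg
    choose x hx using fun i : Fin m => hq (g (Pi.single i 1))
    have hcomm : ∀ a : Fin m → A,
        q (Fintype.linearCombination A x a) = g (fun i => π (a i)) := by
      intro a
      rw [Fintype.linearCombination_apply, map_sum]
      conv_rhs => rw [← Finset.univ_sum_single (fun i => π (a i)), map_sum]
      refine Finset.sum_congr rfl fun i _ => ?_
      rw [LinearMap.map_smulₛₗ, hx, ← map_smul, ← Pi.single_smul, smul_eq_mul, mul_one]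
    refine ⟨Fintype.linearCombination A x, ?_, hcomm⟩
    rw [← LinearMap.range_eq_top]
    refine cover M _ fun z => ?_
    obtain ⟨c, hc⟩ := hg (q z)
    choose a ha using fun i => hπ (c i)
    have e : q (z - Fintype.linearCombination A x a) = 0 := by
      rw [map_sub, hcomm, funext ha, hc, sub_self]
    obtain ⟨y, hy⟩ := (hqk _).mp e
    exact ⟨_, ⟨a, rfl⟩, y, by rw [← hy]; abel⟩
  have divide : ∀ (m : ℕ) (a : Fin m → A), (∀ i, π (a i) = 0) → ∃ b, a = Y • b := by
    intro m a h
    choose b hb using fun i => (hker (a i)).mp (h i)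
    exact ⟨b, funext hb⟩
  intro n
  induction n with
  | zero =>
    intro M _ _ _ Q _ _ q hq hqk hreg ⟨m, ⟨e⟩⟩
    obtain ⟨f, hf, hfc⟩ := prep M Q q hq hqk m e.symm.toLinearMap e.symm.surjective
    have hN : LinearMap.ker f = ⊥ := by
      refine Submodule.eq_bot_of_le_smul_of_le_jacobson_bot (Ideal.span {Y}) _
        (IsNoetherian.noetherian _) ?_ hJ
      intro a ha
      have h0 : e.symm (fun i => π (a i)) = 0 := by
        rw [← LinearEquiv.coe_coe, ← hfc, LinearMap.mem_ker.mp ha, map_zero]
      rw [LinearEquiv.map_eq_zero_iff] at h0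
      obtain ⟨b, rfl⟩ := divide m a (congrFun h0)
      have hb : b ∈ LinearMap.ker f := by
        rw [LinearMap.mem_ker] at ha ⊢
        exact hreg _ (by rw [← map_smul, ha])
      exact Submodule.smul_mem_smul (Ideal.mem_span_singleton_self Y) hb
    exact ⟨m, ⟨(LinearEquiv.ofBijective f ⟨LinearMap.ker_eq_bot.mp hN, hf⟩).symm⟩⟩
  | succ n ih =>
    intro M _ _ _ Q _ _ q hq hqk hreg ⟨m, g, hg, hres⟩
    obtain ⟨f, hf, hfc⟩ := prep M Q q hq hqk m g hg
    refine ⟨m, f, hf, ?_⟩
    let q' : LinearMap.ker f →ₛₗ[π] LinearMap.ker g :=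
      { toFun := fun a => ⟨fun i => π (a.1 i), by
          rw [LinearMap.mem_ker, ← hfc, LinearMap.mem_ker.mp a.2, map_zero]⟩
        map_add' := fun a b => by
          apply Subtype.ext; funext i; simp
        map_smul' := fun r a => by
          apply Subtype.ext; funext i; simp }
    refine ih (LinearMap.ker f) (LinearMap.ker g) q' ?_ ?_ ?_ hres
    · intro c
      choose a ha using fun i => hπ (c.1 i)
      have e : q (f a) = 0 := by rw [hfc, funext ha]; exact LinearMap.mem_ker.mp c.2
      obtain ⟨y, hy⟩ := (hqk _).mp e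
      obtain ⟨b, rfl⟩ := hf y
      refine ⟨⟨a - Y • b, by rw [LinearMap.mem_ker, map_sub, map_smul, hy, sub_self]⟩, ?_⟩
      apply Subtype.ext; funext i
      show π ((a - Y • b) i) = c.1 i
      simp [map_sub, ha, (hker Y).mpr dvd_rfl]
    · intro a
      constructor
      · intro h
        have h' : ∀ i, π (a.1 i) = 0 := fun i => congrFun (congrArg Subtype.val h) i
        obtain ⟨b, hb⟩ := divide m a.1 h'
        refine ⟨⟨b, ?_⟩, Subtype.ext hb⟩
        have := a.2
        rw [LinearMap.mem_ker, hb, map_smul] at this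
        exact LinearMap.mem_ker.mpr (hreg _ this)
      · rintro ⟨b, rfl⟩
        apply Subtype.ext; funext i
        simp [q', (hker Y).mpr dvd_rfl]
    · intro y hy
      exact (smul_eq_zero.mp hy).resolve_left hY0

/-- Every finite module over the power series ring is the image of a finite free module with
kernel of finite free resolution. -/
theorem exists_finRes (k : Type u) [Field k] :
    ∀ (D : ℕ) (M : Type u) [AddCommGroup M] [Module (MvPowerSeries (Fin D) k) M]
      [Module.Finite (MvPowerSeries (Fin D) k) M], FinRes (MvPowerSeries (Fin D) k) D M := by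
  intro D
  induction D with
  | zero =>
    intro M _ _ _
    let e : MvPowerSeries (Fin 0) k ≃ₐ[k] k := MvPowerSeries.isEmptyEquiv _ _
    haveI : IsField (MvPowerSeries (Fin 0) k) → Module.Free (MvPowerSeries (Fin 0) k) M := fun h => by
      letI := h.toField
      infer_instance
    haveI := this ((e.toRingEquiv.toMulEquiv).isField (Field.toIsField k))
    exact ⟨_, ⟨(Module.finBasis (MvPowerSeries (Fin 0) k) M).equivFun⟩⟩
  | succ D ih =>
    intro M _ _ _
    obtain ⟨m, f, hf⟩ := Module.Finite.exists_fin' (MvPowerSeries (Fin (D + 1)) k) M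
    refine ⟨m, f, hf, ?_⟩
    let A := MvPowerSeries (Fin (D + 1)) k
    let e := MvPowerSeries.finSuccEquiv (R := k) (n := D)
    let π : A →+* MvPowerSeries (Fin D) k := PowerSeries.constantCoeff.comp e.toRingEquiv.toRingHom
    let Y : A := MvPowerSeries.X 0
    haveI : IsDomain A := NoZeroDivisors.to_isDomain _
    have hY0 : Y ≠ 0 := fun h => by
      have := congrArg e h
      rw [map_zero, MvPowerSeries.finSuccEquiv_X_zero] at this
      exact PowerSeries.X_ne_zero this
    have hYm : Y ∈ IsLocalRing.maximalIdeal A := by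
      rw [IsLocalRing.mem_maximalIdeal, mem_nonunits_iff, MvPowerSeries.isUnit_iff_constantCoeff]
      simp [Y]
    have hπ : Function.Surjective π := fun b =>
      ⟨e.symm (PowerSeries.C b), by simp [π]⟩
    have hker : ∀ a, π a = 0 ↔ Y ∣ a := by
      intro a
      rw [show π a = PowerSeries.constantCoeff (e a) from rfl, ← PowerSeries.X_dvd_iff,
        ← MvPowerSeries.finSuccEquiv_X_zero]
      exact map_dvd_iff e
    haveI : RingHomSurjective π := ⟨hπ⟩
    -- the quotient of the kernel by `Y`
    let N := LinearMap.ker f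
    let S : Submodule A N := LinearMap.range (Y • (LinearMap.id : N →ₗ[A] N))
    have hann : ∀ a, π a = 0 → ∀ x : N ⧸ S, a • x = 0 := by
      intro a ha x
      obtain ⟨c, rfl⟩ := (hker a).mp ha
      obtain ⟨x, rfl⟩ := S.mkQ_surjective x
      rw [← map_smul, Submodule.mkQ_apply, Submodule.Quotient.mk_eq_zero]
      exact ⟨c • x, by simp [smul_smul, mul_comm]⟩
    letI : SMul (MvPowerSeries (Fin D) k) (N ⧸ S) := ⟨fun b x => Function.surjInv hπ b • x⟩
    have hsmul : ∀ (a : A) (x : N ⧸ S), π a • x = a • x := by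
      intro a x
      show Function.surjInv hπ (π a) • x = a • x
      rw [← sub_eq_zero, ← sub_smul]
      exact hann _ (by rw [map_sub, Function.surjInv_eq hπ, sub_self]) x
    letI : Module (MvPowerSeries (Fin D) k) (N ⧸ S) := hπ.moduleLeft π hsmul
    let q : N →ₛₗ[π] N ⧸ S :=
      { toFun := S.mkQ
        map_add' := map_add _
        map_smul' := fun a x => by rw [hsmul, map_smul] }
    have hq : Function.Surjective q := S.mkQ_surjective
    haveI : Module.Finite (MvPowerSeries (Fin D) k) (N ⧸ S) :=
      Module.Finite.of_surjective q hq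
    refine finRes_lift π Y hπ hker hYm hY0 D N (N ⧸ S) q hq ?_ ?_ (ih (N ⧸ S))
    · intro x
      show S.mkQ x = 0 ↔ _
      rw [Submodule.mkQ_apply, Submodule.Quotient.mk_eq_zero]
      simp [S, eq_comm]
    · intro y hy
      exact (smul_eq_zero.mp hy).resolve_left hY0

end Vale.Agent.P202.Diag
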